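import Mathlib.Geometry.Euclidean.Volume.Measure
import Mathlib.Analysis.Normed.Group.Quotient
import Mathlib.MeasureTheory.Constructions.Polish.Basic
import Mathlib.MeasureTheory.Integral.Bochner.Basic
import Mathlib.Analysis.Calculus.ContDiff.Defs
import Mathlib.Analysis.SpecialFunctions.Pow.Real
import Mathlib.LinearAlgebra.Trace
import Mathlib.Topology.MetricSpace.Thickening
import Mathlib.Topology.Instances.ZMultiples
import Mathlib.Topology.Algebra.IsUniformGroup.Basic

/-!
# The isoperimetric problem in the flat quotients of the Euclidean space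
-/

open MeasureTheory

namespace Vale.Agent.N232

/-- The Euclidean space `ℝ³`. -/
abbrev R3 : Type := EuclideanSpace ℝ (Fin 3)

/-- The group generated by the vectors `(a, 0, 0)`, `(b p, b, 0)` and `(c q, c r, c)`. -/
def L (a b c p q r : ℝ) : AddSubgroup R3 :=
  AddSubgroup.closure {!₂[a, 0, 0], !₂[b * p, b, 0], !₂[c * q, c * r, c]}

theorem mem_L {a b c p q r : ℝ} {x : R3} : x ∈ L a b c p q r ↔
    x 0 - p * (x 1 - r * x 2) - q * x 2 ∈ AddSubgroup.zmultiples a ∧
      x 1 - r * x 2 ∈ AddSubgroup.zmultiples b ∧ x 2 ∈ AddSubgroup.zmultiples c := by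
  simp only [AddSubgroup.mem_zmultiples_iff, zsmul_eq_mul]
  refine ⟨fun h => ?_, fun ⟨⟨i, hi⟩, ⟨j, hj⟩, k, hk⟩ => ?_⟩
  · induction h using AddSubgroup.closure_induction with
    | mem x hx =>
      rcases hx with rfl | rfl | rfl
      · exact ⟨⟨1, by simp⟩, ⟨0, by simp⟩, 0, by simp⟩
      · exact ⟨⟨0, by simp [mul_comm]⟩, ⟨1, by simp⟩, 0, by simp⟩
      · exact ⟨⟨0, by simp [mul_comm]⟩, ⟨0, by simp [mul_comm]⟩, 1, by simp⟩
    | zero => exact ⟨⟨0, by simp⟩, ⟨0, by simp⟩, 0, by simp⟩
    | add x y _ _ hx hy =>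
      obtain ⟨⟨i, hi⟩, ⟨j, hj⟩, k, hk⟩ := hx
      obtain ⟨⟨i', hi'⟩, ⟨j', hj'⟩, k', hk'⟩ := hy
      refine ⟨⟨i + i', ?_⟩, ⟨j + j', ?_⟩, k + k', ?_⟩ <;>
        simp only [PiLp.add_apply, Int.cast_add] <;> linarith
    | neg x _ hx =>
      obtain ⟨⟨i, hi⟩, ⟨j, hj⟩, k, hk⟩ := hx
      refine ⟨⟨-i, ?_⟩, ⟨-j, ?_⟩, -k, ?_⟩ <;> simp only [PiLp.neg_apply, Int.cast_neg] <;> linarith
  · have h : x = i • !₂[a, 0, 0] + j • !₂[b * p, b, 0] + k • !₂[c * q, c * r, c] := by
      ext n
      fin_cases n <;> simp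
      · linear_combination -hi - p * hj - q * hk
      · linear_combination -hj - r * hk
      · exact hk.symm
    rw [h]
    exact add_mem (add_mem (zsmul_mem (AddSubgroup.subset_closure (by simp)) i)
      (zsmul_mem (AddSubgroup.subset_closure (by simp)) j))
      (zsmul_mem (AddSubgroup.subset_closure (by simp)) k)

instance isClosed_L (a b c p q r : ℝ) : IsClosed (L a b c p q r : Set R3) := by
  have h (t : ℝ) {f : R3 → ℝ} (hf : Continuous f) :
      IsClosed {x : R3 | f x ∈ AddSubgroup.zmultiples t} :=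
    (AddSubgroup.isClosed_of_discrete (H := AddSubgroup.zmultiples t)).preimage hf
  rw [Set.ext fun _ => mem_L]
  exact (h a (by fun_prop)).inter ((h b (by fun_prop)).inter (h c (by fun_prop)))

/-- The quotient `ℝ³/G`. Its distance is Mathlib's quotient distance, the least Euclidean distance of
representatives: the flat metric. -/
abbrev T (G : AddSubgroup R3) : Type := R3 ⧸ G

variable (G : AddSubgroup R3) [IsClosed (G : Set R3)]

/-- The volume of `ℝ³/G`: the three-dimensional Hausdorff measure of the quotient distance (the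
flat metric), normalized so that it is the Lebesgue measure on the Euclidean space. -/
noncomputable def vol : Measure (T G) := μHE[3]

variable {G}

/-- `X` is a `C¹` vector field on `ℝ³/G` with compact support, of length at most one. -/
def IsField (X : T G → R3) : Prop :=
  ContDiff ℝ 1 (fun x : R3 => X x) ∧ HasCompactSupport X ∧ ∀ p, ‖X p‖ ≤ 1

/-- The divergence: the trace of the derivative. -/
noncomputable def div (X : T G → R3) (p : T G) : ℝ :=
  LinearMap.trace ℝ R3 (fderiv ℝ (fun v : R3 => X (p + v)) 0).toLinearMap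

/-- De Giorgi's perimeter. -/
noncomputable def perimeter (E : Set (T G)) : ENNReal :=
  ⨆ (X : T G → R3) (_ : IsField X), ENNReal.ofReal (∫ p in E, div X p ∂vol G)

variable (G) in
/-- The isoperimetric profile `I(V)`. -/
noncomputable def profile (V : ℝ) : ENNReal :=
  ⨅ (E : Set (T G)) (_ : NullMeasurableSet E (vol G)) (_ : perimeter E < ⊤)
    (_ : vol G E = ENNReal.ofReal V), perimeter E

/-- `E` is a minimizer of volume `V`. -/
def IsMinimizer (V : ℝ) (E : Set (T G)) : Prop :=
  NullMeasurableSet E (vol G) ∧ vol G E = ENNReal.ofReal V ∧ perimeter E = profile G V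

/-- The least of the areas of a sphere, of a cylinder of height `a` (both enclosing the volume `v`)
and of two rectangles of sides `a`, `b`. -/
noncomputable def J (a b v : ℝ) : ℝ :=
  min (min ((36 * Real.pi) ^ (1 / 3 : ℝ) * v ^ (2 / 3 : ℝ)) (2 * Real.sqrt (Real.pi * a * v)))
    (2 * a * b)

/-- `γ` is a closed geodesic of length `l`, run through at unit speed: it has the period `l` and it
preserves the distances locally. -/
def IsClosedGeodesic (γ : ℝ → T G) (l : ℝ) : Prop :=
  0 < l ∧ Function.Periodic γ l ∧ ∀ t : ℝ, ∃ ε > 0, ∀ s ∈ Metric.ball t ε, ∀ s' ∈ Metric.ball t ε,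
    dist (γ s) (γ s') = dist s s'

/-- `γ` is a shortest closed geodesic. -/
def IsShortest (γ : ℝ → T G) : Prop :=
  ∃ l, IsClosedGeodesic γ l ∧ ∀ (γ' : ℝ → T G) l', IsClosedGeodesic γ' l' → l ≤ l'

/-- The regions of volume `v ≤ 1/2` of the cubic torus: geodesic balls for `v ≤ 4π/81`, solid tubes
about a shortest closed geodesic for `4π/81 ≤ v ≤ 1/π`, slabs for `1/π ≤ v`. -/
def Model (v : ℝ) (B : Set (T G)) : Prop :=
  (v ≤ 4 * Real.pi / 81 ∧ ∃ c r, 0 < r ∧ 4 / 3 * Real.pi * r ^ 3 = v ∧ B = Metric.ball c r) ∨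
  (4 * Real.pi / 81 ≤ v ∧ v ≤ 1 / Real.pi ∧
    ∃ γ, IsShortest γ ∧ B = Metric.thickening (Real.sqrt (v / Real.pi)) (Set.range γ)) ∨
  (1 / Real.pi ≤ v ∧ ∃ i s, B = (fun x : R3 => (x : T G)) '' {x | s < x i ∧ x i < s + v})

end Vale.Agent.N232
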