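import Vale.Agent.N232.Win
import Vale.Agent.N232.Gen

/-! The relative isoperimetric inequality in all rectangular boxes. -/

open MeasureTheory Set Filter Topology

namespace Vale.Agent.N232

open Vale.Agent.P232

theorem integral_diag {l d : V3} (hd : ∀ i, 0 < d i) {E : Set V3} (hE : MeasurableSet E)
    (g : V3 → ℝ) : ∫ x in (fun y j => l j + d j * y j) '' E, g x =
      (∏ i, d i) * ∫ y in E, g fun j => l j + d j * y j := by
  have h1 : ∀ y : V3, HasFDerivAt (fun (y : V3) j => l j + d j * y j)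
      (ContinuousLinearMap.pi fun j => d j • ContinuousLinearMap.proj (R := ℝ)
        (φ := fun _ : Fin 3 => ℝ) j) y := fun y => hasFDerivAt_pi.2 fun i =>
    ((ContinuousLinearMap.proj (R := ℝ) (φ := fun _ : Fin 3 => ℝ) i).hasFDerivAt.const_mul
      (d i)).const_add (l i)
  have h2 : ((ContinuousLinearMap.pi fun j => d j • ContinuousLinearMap.proj (R := ℝ)
        (φ := fun _ : Fin 3 => ℝ) j : V3 →L[ℝ] V3) : V3 →ₗ[ℝ] V3) =
        Matrix.toLin' (Matrix.diagonal d) := by
    apply LinearMap.ext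
    intro y
    ext i
    simp [Matrix.mulVec_diagonal]
  rw [integral_image_eq_integral_abs_det_fderiv_smul volume hE
    (fun y _ => (h1 y).hasFDerivWithinAt) (fun y _ z _ h => funext fun j =>
      mul_left_cancel₀ (hd j).ne' (add_left_cancel (congrFun h j)))]
  simp only [ContinuousLinearMap.det, h2, LinearMap.det_toLin', Matrix.det_diagonal]
  rw [abs_of_pos (Finset.prod_pos fun i _ => hd i), ← integral_const_mul]
  rfl

theorem Fld.integral_inter {U F : Set V3} {X : V3 → V3} (h : Fld U X) (hF : MeasurableSet F) :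
    ∫ x in F, divergence X x = ∫ x in F ∩ U, divergence X x :=
  setIntegral_eq_of_subset_of_forall_sdiff_eq_zero hF inter_subset_left fun _ hx =>
    divergence_eq_zero fun h' => hx.2 ⟨hx.1, h.support h'⟩

/-- The cube inequality in a box, after stretching. -/
theorem scale {F : Set V3} (hF : MeasurableSet F) {l u : V3} (h : ∀ i, l i < u i) {t : ℝ}
    (ht : ∀ i, u i - l i ≤ t) (h0 : 0 < mass F l u) (h1 : mass F l u < ∏ i, (u i - l i)) :
    ENNReal.ofReal ((∏ i, (u i - l i)) / t * (P232.J (mass F l u / ∏ i, (u i - l i)) / 2)) ≤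
      rp F (bx l u) := by
  have hd : ∀ i, 0 < u i - l i := fun i => sub_pos.2 (h i)
  have hD : 0 < ∏ i, (u i - l i) := Finset.prod_pos fun i _ => hd i
  have ht0 : 0 < t := (hd 0).trans_le (ht 0)
  set ψ : V3 → V3 := fun y j => l j + (u j - l j) * y j with hψ
  set φ : V3 → V3 := fun x j => -l j / (u j - l j) + 1 / (u j - l j) * x j with hφ
  have hc : Continuous ψ := by fun_prop
  have e1 : ∀ y, φ (ψ y) = y := fun y => funext fun j => by
    have := (hd j).ne'
    simp only [hψ, hφ]
    field_simp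
    ring
  have e2 : ∀ x, ψ (φ x) = x := fun x => funext fun j => by
    have := (hd j).ne'
    simp only [hψ, hφ]
    field_simp
    ring
  have e3 : ∀ y, ψ y ∈ bx l u ↔ y ∈ openCube 3 := fun y => by
    rw [mem_bx]
    refine forall_congr' fun j => ?_
    have := hd j
    simp only [hψ]
    constructor
    · rintro ⟨h2, h3⟩
      constructor <;> nlinarith
    · rintro ⟨h2, h3⟩
      constructor <;> nlinarith
  set E : Set V3 := openCube 3 ∩ ψ ⁻¹' F with hE
  have mE : MeasurableSet E := (H732.isOpen_openCube 3).measurableSet.inter (hc.measurable hF)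
  have e4 : ψ '' E = F ∩ bx l u := by
    ext x
    refine ⟨?_, fun hx => ⟨φ x, ⟨(e3 _).1 ((e2 x).symm ▸ hx.2), ?_⟩, e2 x⟩⟩
    · rintro ⟨y, hy, rfl⟩
      exact ⟨hy.2, (e3 y).2 hy.1⟩
    · rw [mem_preimage, e2]
      exact hx.1
  have e5 : (volume E).toReal = mass F l u / ∏ i, (u i - l i) := by
    have := integral_diag (l := l) hd mE fun _ => 1
    rw [e4] at this
    simp only [integral_const, MeasurableSet.univ, measureReal_restrict_apply, univ_inter,
      smul_eq_mul, mul_one] at this
    rw [eq_div_iff hD.ne', mul_comm]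
    exact this.symm
  have e6 : ENNReal.ofReal (P232.J (mass F l u / ∏ i, (u i - l i)) / 2) ≤ relPerimeter E := by
    rw [← H732.relProfile_eq (div_pos h0 hD) ((div_lt_one hD).2 h1)]
    exact iInf₂_le_of_le E mE (iInf₂_le_of_le inter_subset_left e5 le_rfl)
  rw [ENNReal.ofReal_mul (div_pos hD ht0).le]
  refine (mul_le_mul_right e6 _).trans ?_
  unfold relPerimeter
  simp only [ENNReal.mul_iSup]
  refine iSup₂_le fun Y hY => ?_
  have hs : tsupport (fun x i => (u i - l i) / t * Y (φ x) i) ⊆ ψ '' tsupport Y := by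
    refine closure_minimal (fun x hx => ⟨φ x, ?_, e2 x⟩) (hY.compact.isCompact.image hc).isClosed
    by_contra h'
    exact hx (funext fun i => by simp [image_eq_zero_of_notMem_tsupport h'])
  have hX : Fld (bx l u) (fun x i => (u i - l i) / t * Y (φ x) i) := by
    refine ⟨H732.contDiff_diag hY.contDiff _ _ _,
      (hY.compact.isCompact.image hc).of_isClosed_subset (isClosed_tsupport _) hs,
      hs.trans ?_, fun x => (Finset.sum_le_sum fun i _ => ?_).trans (hY.bound (φ x))⟩
    · rintro _ ⟨y, hy, rfl⟩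
      exact (e3 y).2 (hY.support hy)
    · rw [mul_pow]
      exact mul_le_of_le_one_left (sq_nonneg _) (pow_le_one₀ (div_pos (hd i) ht0).le
        ((div_le_one ht0).2 (ht i)))
  refine le_trans (le_of_eq ?_) (le_rp hX)
  rw [hX.integral_inter hF, ← e4, integral_diag hd mE, ← ENNReal.ofReal_mul (div_pos hD ht0).le,
    inter_eq_left.2 inter_subset_left]
  congr 1
  have e7 : ∀ y, divergence (fun x i => (u i - l i) / t * Y (φ x) i) (ψ y) =
      1 / t * divergence Y y := fun y => by
    rw [H732.divergence_diag (hY.contDiff.differentiable one_ne_zero) _ _ _ (1 / t)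
      fun i => by have := (hd i).ne'; field_simp]
    exact congrArg (fun z => 1 / t * divergence Y z) (e1 y)
  rw [integral_congr_ae (Eventually.of_forall e7), integral_const_mul]
  ring

theorem J_eq (θ : ℝ) : P232.J θ = J 1 1 (min θ (1 - θ)) := by
  simp [P232.J, J]

theorem J_mono {a b v w : ℝ} (ha : 0 ≤ a) (hv : 0 ≤ v) (h : v ≤ w) : J a b v ≤ J a b w := by
  unfold J
  have := Real.pi_pos
  gcongr

theorem J_conc {s θ : ℝ} (hs : 0 ≤ s) (hs1 : s ≤ 1) (hθ : 0 ≤ θ) :
    s * J 1 1 θ ≤ J 1 1 (s * θ) := by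
  have hpi := Real.pi_pos
  unfold J
  refine le_min (le_min ?_ ?_) ?_
  · refine (mul_le_mul_of_nonneg_left ((min_le_left _ _).trans (min_le_left _ _)) hs).trans ?_
    rw [Real.mul_rpow hs hθ, mul_left_comm]
    refine mul_le_mul_of_nonneg_left (mul_le_mul_of_nonneg_right ?_ (by positivity))
      (by positivity)
    exact Real.self_le_rpow_of_le_one hs hs1 (by norm_num)
  · refine (mul_le_mul_of_nonneg_left ((min_le_left _ _).trans (min_le_right _ _)) hs).trans ?_
    rw [mul_left_comm, show Real.pi * 1 * (s * θ) = s * (Real.pi * 1 * θ) by ring,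
      Real.sqrt_mul hs]
    refine mul_le_mul_of_nonneg_left (mul_le_mul_of_nonneg_right ?_ (by positivity))
      (by positivity)
    exact Real.le_sqrt_of_sq_le (by nlinarith)
  · exact (mul_le_mul_of_nonneg_left (min_le_right _ _) hs).trans (by linarith)

theorem J_scale {k : ℝ} (hk : 0 < k) (a b : ℝ) {v : ℝ} (hv : 0 ≤ v) :
    J (k * a) (k * b) (k ^ 3 * v) = k ^ 2 * J a b v := by
  unfold J
  rw [mul_min_of_nonneg _ _ (sq_nonneg k), mul_min_of_nonneg _ _ (sq_nonneg k),
    Real.mul_rpow (by positivity) hv, ← Real.rpow_natCast k 3, ← Real.rpow_mul hk.le,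
    show ((3 : ℕ) : ℝ) * (2 / 3) = (2 : ℕ) by norm_num, Real.rpow_natCast, Real.rpow_natCast,
    show Real.pi * (k * a) * (k ^ 3 * v) = (k ^ 2) ^ 2 * (Real.pi * a * v) by ring,
    Real.sqrt_mul (sq_nonneg _), Real.sqrt_sq (sq_nonneg k)]
  congr 1
  · congr 1 <;> ring
  · ring

theorem J_pi : J 1 1 (1 / Real.pi) = 2 := by
  have hpi := Real.pi_pos
  have h1 : 2 ≤ (36 * Real.pi) ^ (1 / 3 : ℝ) * (1 / Real.pi) ^ (2 / 3 : ℝ) := by
    refine le_of_pow_le_pow_left₀ three_ne_zero (by positivity) ?_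
    rw [mul_pow, ← Real.rpow_natCast, ← Real.rpow_natCast _ 3, ← Real.rpow_natCast _ 3,
      ← Real.rpow_mul (by positivity), ← Real.rpow_mul (by positivity)]
    norm_num
    rw [show 36 * Real.pi * (Real.pi ^ 2)⁻¹ = 36 / Real.pi by field_simp, le_div_iff₀ hpi]
    linarith [Real.pi_le_four]
  unfold J
  rw [mul_one, mul_one_div_cancel hpi.ne', Real.sqrt_one]
  simp only [mul_one]
  rw [min_eq_right h1, min_self]

theorem J_nonneg {a b v : ℝ} (ha : 0 ≤ a) (hb : 0 ≤ b) (hv : 0 ≤ v) : 0 ≤ J a b v := by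
  unfold J
  have := Real.pi_pos
  positivity

theorem mass_nonneg (F : Set V3) (l u : V3) : 0 ≤ mass F l u := measureReal_nonneg

/-- Short boxes of small density. -/
theorem level0 {F : Set V3} (hF : MeasurableSet F) {a t θ : ℝ} (ha : 0 < a) (hat : a ≤ t)
    (hθ : 0 < θ) (hθ2 : θ ≤ 1 / 2) {l u : V3} (h0 : u 0 - l 0 = a) (h1 : l 1 ≤ u 1)
    (h1' : u 1 - l 1 ≤ t) (h2 : l 2 ≤ u 2) (h2' : u 2 - l 2 ≤ t)
    (hm : mass F l u ≤ θ * a * (u 2 - l 2) * (u 1 - l 1)) :
    ENNReal.ofReal (J 1 1 θ / (2 * t * θ) * mass F l u) ≤ rp F (bx l u) := by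
  rcases (mass_nonneg F l u).eq_or_lt with h | h
  · rw [← h]
    simp
  have ht : 0 < t := ha.trans_le hat
  have d1 : l 1 < u 1 := h1.lt_of_ne fun e => by rw [e] at hm; simp at hm; linarith
  have d2 : l 2 < u 2 := h2.lt_of_ne fun e => by rw [e] at hm; simp at hm; linarith
  have hD : ∏ i, (u i - l i) = a * (u 2 - l 2) * (u 1 - l 1) := by
    rw [Fin.prod_univ_three, h0]
    ring
  have hD0 : 0 < a * (u 2 - l 2) * (u 1 - l 1) := by
    have := sub_pos.2 d1
    have := sub_pos.2 d2
    positivity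
  have hs := scale hF (l := l) (u := u) (t := t)
    (fun i => by fin_cases i; exacts [by simp; linarith, d1, d2])
    (fun i => by fin_cases i; exacts [by simp; linarith, h1', h2']) h (by rw [hD]; nlinarith)
  refine le_trans (ENNReal.ofReal_le_ofReal ?_) hs
  rw [hD, J_eq]
  set D := a * (u 2 - l 2) * (u 1 - l 1)
  set m := mass F l u
  have h3 : m / D ≤ θ := by rw [div_le_iff₀ hD0]; nlinarith
  rw [min_eq_left (by linarith)]
  have h4 := J_conc (s := m / D / θ) (θ := θ) (by positivity) ((div_le_one hθ).2 h3) hθ.le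
  rw [div_mul_cancel₀ _ hθ.ne'] at h4
  calc J 1 1 θ / (2 * t * θ) * m = D / t * (m / D / θ * J 1 1 θ / 2) := by field_simp
    _ ≤ _ := by gcongr

/-- Long boxes of small mass. -/
theorem level2 {F : Set V3} (hF : MeasurableSet F) {a t θ : ℝ} (ha : 0 < a) (hat : a ≤ t)
    (hθ : 0 < θ) (hθ2 : θ ≤ 1 / 2) {l u : V3} (h0 : u 0 - l 0 = a) (h1 : t ≤ u 1 - l 1)
    (h2 : t ≤ u 2 - l 2) (hm : mass F l u = θ * a * t * t) :
    ENNReal.ofReal (a * t * J 1 1 θ / 2) ≤ rp F (bx l u) := by
  have ht : 0 < t := ha.trans_le hat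
  have hκ : 0 ≤ J 1 1 θ / (2 * t * θ) := by
    have := J_nonneg zero_le_one zero_le_one hθ.le
    positivity
  have level1 : ∀ l u : V3, u 0 - l 0 = a → t ≤ u 1 - l 1 → l 2 ≤ u 2 → u 2 - l 2 ≤ t →
      mass F l u ≤ θ * a * t * (u 2 - l 2) →
      ENNReal.ofReal (J 1 1 θ / (2 * t * θ) * mass F l u) ≤ rp F (bx l u) := by
    intro l u h0 h1 h2 h2' hm
    rcases h2.eq_or_lt with e | e
    · rw [le_antisymm (hm.trans (by rw [e]; simp)) (mass_nonneg F l u)]
      simp
    have e' := sub_pos.2 e
    have := (mass_window hF l u 1).window (rp_window F l u 1) (lam := θ * a * (u 2 - l 2))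
      (by positivity) ht hκ (fun p q h3 h4 h5 => level0 hF ha hat hθ hθ2 (by simpa using h0)
        (by simpa using h3) (by simpa using h4) (by simpa using h2) (by simpa using h2')
        (by simpa using h5)) h1 (by simp only [Function.update_eq_self]; linarith)
    simpa only [Function.update_eq_self] using this
  have := (mass_window hF l u 2).window (rp_window F l u 2) (lam := θ * a * t)
    (by positivity) ht hκ (fun p q h3 h4 h5 => level1 _ _ (by simpa using h0)
      (by simpa using h1) (by simpa using h3) (by simpa using h4) (by simpa using h5)) h2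
      (by simp only [Function.update_eq_self]; linarith)
  simp only [Function.update_eq_self] at this
  refine le_trans (le_of_eq ?_) this
  rw [hm]
  congr 1
  field_simp

/-- Masses up to the volume at which tubes and slabs have the same area. -/
theorem box_small {F : Set V3} (hF : MeasurableSet F) {a b : ℝ} (ha : 0 < a) (hab : a ≤ b)
    {l u : V3} (h0 : u 0 - l 0 = a) (h1 : b ≤ u 1 - l 1) (h2 : b ≤ u 2 - l 2)
    (hm : mass F l u ≤ a * b ^ 2 / Real.pi) :
    ENNReal.ofReal (J a b (mass F l u) / 2) ≤ rp F (bx l u) := by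
  have hpi := Real.pi_gt_three
  rcases (mass_nonneg F l u).eq_or_lt with h | h
  · rw [← h, ENNReal.ofReal_of_nonpos]
    · exact zero_le
    · have : J a b 0 ≤ 2 * √(Real.pi * a * 0) := (min_le_left _ _).trans (min_le_right _ _)
      simp at this
      linarith
  set m := mass F l u with hm0
  have hi : 1 / Real.pi ≤ 1 / 2 := one_div_le_one_div_of_le (by norm_num) (by linarith)
  rcases le_total (Real.pi * m) (a ^ 3) with h3 | h3
  · have h4 : m / a ^ 3 ≤ 1 / Real.pi := by
      rw [div_le_div_iff₀ (by positivity) (by positivity)]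
      linarith
    refine le_trans (ENNReal.ofReal_le_ofReal ?_) (level2 hF ha le_rfl (θ := m / a ^ 3)
      (by positivity) (h4.trans hi) h0 (hab.trans h1) (hab.trans h2) (by field_simp; rfl))
    have h5 := J_scale ha 1 1 (v := m / a ^ 3) (by positivity)
    rw [mul_one, mul_div_cancel₀ _ (by positivity)] at h5
    have h6 : J a b m ≤ J a a m := by
      have h7 : J a b m ≤ 2 * √(Real.pi * a * m) := (min_le_left _ _).trans (min_le_right _ _)
      refine le_min (min_le_left _ _) (h7.trans ?_)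
      rw [mul_assoc 2]
      exact mul_le_mul_of_nonneg_left (Real.sqrt_le_iff.2 ⟨by positivity, by nlinarith⟩)
        zero_le_two
    nlinarith
  · set t := √(Real.pi * m / a) with ht
    have ht2 : t * t = Real.pi * m / a := Real.mul_self_sqrt (by positivity)
    have h4 : a ≤ t := Real.le_sqrt_of_sq_le (by rw [le_div_iff₀ ha]; linarith)
    have h5 : t ≤ b := Real.sqrt_le_iff.2 ⟨by linarith, by
      rw [le_div_iff₀ (by positivity)] at hm
      rw [div_le_iff₀ ha]
      linarith⟩
    refine le_trans (ENNReal.ofReal_le_ofReal ?_) (level2 hF ha h4 (θ := 1 / Real.pi)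
      (by positivity) hi h0 (h5.trans h1) (h5.trans h2) (by rw [mul_assoc, ht2]; field_simp; rfl))
    have h7 : J a b m ≤ 2 * √(Real.pi * a * m) := (min_le_left _ _).trans (min_le_right _ _)
    have h8 : √(Real.pi * a * m) ≤ a * t := Real.sqrt_le_iff.2 ⟨by positivity, by
      rw [mul_pow, sq t, ht2]
      field_simp
      rfl⟩
    rw [J_pi]
    linarith

theorem J_thr {a b : ℝ} (ha : 0 < a) (hab : a ≤ b) :
    J a b (a * b ^ 2 / Real.pi) = 2 * a * b := by
  have hpi := Real.pi_pos
  have hb := ha.trans_le hab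
  unfold J
  rw [show Real.pi * a * (a * b ^ 2 / Real.pi) = (a * b) ^ 2 by field_simp,
    Real.sqrt_sq (by positivity), ← mul_assoc, min_assoc, min_self]
  refine min_eq_right (le_of_pow_le_pow_left₀ three_ne_zero (by positivity) ?_)
  rw [mul_pow ((36 * Real.pi) ^ (1 / 3 : ℝ)), ← Real.rpow_natCast ((36 * Real.pi) ^ (1 / 3 : ℝ)),
    ← Real.rpow_natCast ((a * b ^ 2 / Real.pi) ^ (2 / 3 : ℝ)),
    ← Real.rpow_mul (by positivity), ← Real.rpow_mul (by positivity)]
  norm_num
  rw [show 36 * Real.pi * (a * b ^ 2 / Real.pi) ^ 2 = 36 * a ^ 2 * b ^ 4 / Real.pi by field_simp,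
    le_div_iff₀ hpi]
  have h1 : 0 ≤ a ^ 2 * b ^ 3 := by positivity
  have h2 : a ^ 2 * b ^ 3 * a ≤ a ^ 2 * b ^ 3 * b := mul_le_mul_of_nonneg_left hab h1
  have h3 : (2 * a * b) ^ 3 * Real.pi ≤ (2 * a * b) ^ 3 * 4 :=
    mul_le_mul_of_nonneg_left Real.pi_le_four (by positivity)
  nlinarith [mul_pos (pow_pos ha 2) (pow_pos hb 4)]

theorem rp_compl {F : Set V3} (hF : MeasurableSet F) (U : Set V3) : rp Fᶜ U = rp F U :=
  le_antisymm (rp_compl_le hF U) (by simpa using rp_compl_le hF.compl U)

/-- The relative isoperimetric inequality in a box with sides `a ≤ b ≤ c`. -/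
theorem box {F : Set V3} (hF : MeasurableSet F) {a b : ℝ} (ha : 0 < a) (hab : a ≤ b)
    {l u : V3} (h0 : u 0 - l 0 = a) (h1 : u 1 - l 1 = b) (h2 : b ≤ u 2 - l 2) {v : ℝ}
    (hv : 0 ≤ v) (hv1 : v ≤ mass F l u) (hv2 : v ≤ mass Fᶜ l u) :
    ENNReal.ofReal (J a b v / 2) ≤ rp F (bx l u) := by
  have hb := ha.trans_le hab
  have hpi := Real.pi_pos
  rcases le_total (mass F l u) (a * b ^ 2 / Real.pi) with h3 | h3
  · refine le_trans (ENNReal.ofReal_le_ofReal ?_) (box_small hF ha hab h0 h1.ge h2 h3)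
    linarith [J_mono (b := b) ha.le hv hv1]
  rcases le_total (mass Fᶜ l u) (a * b ^ 2 / Real.pi) with h4 | h4
  · rw [← rp_compl hF]
    refine le_trans (ENNReal.ofReal_le_ofReal ?_) (box_small hF.compl ha hab h0 h1.ge h2 h4)
    linarith [J_mono (b := b) ha.le hv hv2]
  refine le_trans (ENNReal.ofReal_le_ofReal (show _ ≤ a * b by
    have : J a b v ≤ 2 * a * b := min_le_right _ _
    linarith)) ?_
  have hsub : ∀ s, s ≤ u 2 → bx l (Function.update u 2 s) ⊆ bx l u := fun s hs x hx => by
    rw [mem_bx] at hx ⊢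
    intro i
    refine ⟨(hx i).1, (hx i).2.trans_le ?_⟩
    fin_cases i <;> simp [hs]
  have key : ∀ F : Set V3, MeasurableSet F → a * b ^ 2 / Real.pi ≤ mass F l u →
      mass F l (Function.update u 2 (l 2 + b)) ≤ a * b ^ 2 / Real.pi →
      ENNReal.ofReal (a * b) ≤ rp F (bx l u) := by
    intro F hF h3 h5
    obtain ⟨s, hs1, hs2, e⟩ := (mass_window hF l u 2).ivt (p := l 2) (y := l 2 + b) (q := u 2)
      (w := a * b ^ 2 / Real.pi) (by linarith) (by linarith) (by simpa using h5) (by simpa using h3)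
    simp only [Function.update_eq_self] at e
    have := box_small hF ha hab (l := l) (u := Function.update u 2 s) (by simpa using h0)
      (by simpa using h1.ge) (by simp; linarith) e.le
    rw [e, J_thr ha hab] at this
    refine le_trans (le_of_eq ?_) (this.trans (rp_mono F (hsub s hs2)))
    congr 1
    ring
  rcases le_total (mass F l (Function.update u 2 (l 2 + b))) (a * b ^ 2 / Real.pi) with h5 | h5
  · exact key F hF h3 h5
  rcases le_total (mass Fᶜ l (Function.update u 2 (l 2 + b))) (a * b ^ 2 / Real.pi) with h6 | h6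
  · rw [← rp_compl hF]
    exact key Fᶜ hF.compl h4 h6
  have hlt : ∀ i, l i < Function.update u 2 (l 2 + b) i := fun i => by
    fin_cases i <;> simp <;> linarith
  have hD : ∏ i, (Function.update u 2 (l 2 + b) i - l i) = a * b ^ 2 := by
    rw [Fin.prod_univ_three]
    simp [h0, h1]
    ring
  rw [mass_compl hF fun i => (hlt i).le, hD] at h6
  have hw : 0 < a * b ^ 2 / Real.pi := by positivity
  have hs := scale hF hlt (t := b) (fun i => by fin_cases i <;> simp <;> linarith)
    (hw.trans_le h5) (by rw [hD]; linarith)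
  refine le_trans (ENNReal.ofReal_le_ofReal ?_) (hs.trans (rp_mono F (hsub _ (by linarith))))
  rw [hD, J_eq]
  set m := mass F l (Function.update u 2 (l 2 + b))
  have hD0 : 0 < a * b ^ 2 := by positivity
  have h7 : 1 / Real.pi ≤ min (m / (a * b ^ 2)) (1 - m / (a * b ^ 2)) := by
    refine le_min ?_ ?_
    · rw [le_div_iff₀ hD0]
      exact le_trans (le_of_eq (by ring)) h5
    · rw [le_sub_comm, div_le_iff₀ hD0]
      have : (1 - 1 / Real.pi) * (a * b ^ 2) = a * b ^ 2 - a * b ^ 2 / Real.pi := by ring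
      linarith
  have h8 := J_mono (a := 1) (b := 1) zero_le_one (by positivity) h7
  rw [J_pi] at h8
  calc a * b = a * b ^ 2 / b * (2 / 2) := by field_simp
    _ ≤ _ := by gcongr

end Vale.Agent.N232
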