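import Vale.Agent.N232.Gen

/-!
# The isoperimetric problem in flat three-tori and in `T² × ℝ`
-/

open MeasureTheory

namespace Vale.Agent.N232.S

/-- The Euclidean space `ℝ³`. -/
abbrev R3 : Type := EuclideanSpace ℝ (Fin 3)

/-- The group generated by the vectors `(a, 0, 0)`, `(b p, b, 0)` and `(c q, c r, c)`. -/
def L (a b c p q r : ℝ) : AddSubgroup R3 :=
  AddSubgroup.closure {!₂[a, 0, 0], !₂[b * p, b, 0], !₂[c * q, c * r, c]}

instance isClosed_L (a b c p q r : ℝ) : IsClosed (L a b c p q r : Set R3) :=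
  N232.isClosed_L a b c p q r

/-- The quotient `ℝ³/L`. Its distance is Mathlib's quotient distance, the least Euclidean distance of
representatives: the flat metric. -/
abbrev T (a b c p q r : ℝ) : Type := R3 ⧸ L a b c p q r

variable {a b c p q r : ℝ}

/-- The volume of `T`: the three-dimensional Hausdorff measure of the quotient distance (the
flat metric), normalized so that it is the Lebesgue measure on the Euclidean space. -/
noncomputable def vol : Measure (T a b c p q r) := μHE[3]

/-- `X` is a `C¹` vector field on `T` with compact support, of length at most one. -/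
def IsField (X : T a b c p q r → R3) : Prop :=
  ContDiff ℝ 1 (fun x : R3 => X x) ∧ HasCompactSupport X ∧ ∀ z, ‖X z‖ ≤ 1

/-- The divergence `∑ ∂X_i/∂x_i`. -/
noncomputable def div (X : T a b c p q r → R3) (z : T a b c p q r) : ℝ :=
  ∑ i, deriv (fun t : ℝ => X (z + (EuclideanSpace.single i t : R3)) i) 0

/-- De Giorgi's perimeter. -/
noncomputable def perimeter (E : Set (T a b c p q r)) : ENNReal :=
  ⨆ (X : T a b c p q r → R3) (_ : IsField X), ENNReal.ofReal (∫ z in E, div X z ∂vol)

variable (a b c p q r) in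
/-- The isoperimetric profile `I(V)`. -/
noncomputable def profile (V : ℝ) : ENNReal :=
  ⨅ (E : Set (T a b c p q r)) (_ : NullMeasurableSet E vol) (_ : perimeter E < ⊤)
    (_ : vol E = ENNReal.ofReal V), perimeter E

/-- `E` is a minimizer of volume `V`. -/
def IsMinimizer (V : ℝ) (E : Set (T a b c p q r)) : Prop :=
  NullMeasurableSet E vol ∧ vol E = ENNReal.ofReal V ∧ perimeter E = profile a b c p q r V

/-- The least of the areas of a sphere, of a cylinder of height `a` (both enclosing the volume `v`)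
and of two rectangles of sides `a`, `b`. -/
noncomputable def J (a b v : ℝ) : ℝ :=
  min (min ((36 * Real.pi) ^ (1 / 3 : ℝ) * v ^ (2 / 3 : ℝ)) (2 * Real.sqrt (Real.pi * a * v)))
    (2 * a * b)

/-- `γ` is a closed geodesic of length `l`, run through at unit speed: it has the period `l` and it
preserves the distances locally. -/
def IsClosedGeodesic (γ : ℝ → T a b c p q r) (l : ℝ) : Prop :=
  0 < l ∧ Function.Periodic γ l ∧ ∀ t : ℝ, ∃ ε > 0, ∀ s ∈ Metric.ball t ε, ∀ s' ∈ Metric.ball t ε,
    dist (γ s) (γ s') = dist s s'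

/-- `γ` is a shortest closed geodesic. -/
def IsShortest (γ : ℝ → T a b c p q r) : Prop :=
  ∃ l, IsClosedGeodesic γ l ∧ ∀ (γ' : ℝ → T a b c p q r) l', IsClosedGeodesic γ' l' → l ≤ l'

/-- The regions of volume `v ≤ 1/2` of the cubic torus: geodesic balls for `v ≤ 4π/81`, solid tubes
about a shortest closed geodesic for `4π/81 ≤ v ≤ 1/π`, slabs for `1/π ≤ v`. -/
def Model (v : ℝ) (B : Set (T a b c p q r)) : Prop :=
  (v ≤ 4 * Real.pi / 81 ∧ ∃ z ρ, 0 < ρ ∧ 4 / 3 * Real.pi * ρ ^ 3 = v ∧ B = Metric.ball z ρ) ∨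
  (4 * Real.pi / 81 ≤ v ∧ v ≤ 1 / Real.pi ∧
    ∃ γ, IsShortest γ ∧ B = Metric.thickening (Real.sqrt (v / Real.pi)) (Set.range γ)) ∨
  (1 / Real.pi ≤ v ∧ ∃ i s, B = (fun x : R3 => (x : T a b c p q r)) '' {x | s < x i ∧ x i < s + v})

end Vale.Agent.N232.S
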