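import Vale.Agent.N232.Win

/-! Upper bounds: the flux through spheres, cylinders and pairs of planes. -/

open MeasureTheory Set Filter Topology

namespace Vale.Agent.N232

open Vale.Agent.P232

theorem qd_subset {n : ℕ} {R : ℝ} (hR : 0 < R) : {x : Fin n → ℝ | qd x < R ^ 2} ⊆
    Metric.closedBall (fun _ => (1 / 2 : ℝ)) R := by
  intro x hx
  rw [Metric.mem_closedBall, dist_pi_le_iff hR.le]
  intro i
  rw [Real.dist_eq]
  have h3 : (x i - 1 / 2) ^ 2 ≤ qd x :=
    Finset.single_le_sum (f := fun i => (x i - 1 / 2) ^ 2) (fun j _ => sq_nonneg _)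
      (Finset.mem_univ i)
  exact abs_le_of_sq_le_sq (h3.trans (le_of_lt hx)) hR.le

theorem cutBall_le {n : ℕ} {R R' : ℝ} (hR : 0 < R) (h : R < R')
    {X : (Fin (n + 1) → ℝ) → (Fin (n + 1) → ℝ)} (hX : ContDiff ℝ 1 X)
    (hb : ∀ x, ∑ i, X x i ^ 2 ≤ 1) :
    ∫ x, cutBall (n := n + 1) R R' x * divergence X x ≤
      (n + 1) * omega (n + 1) * R' ^ n := by
  set g := cutBall (n := n + 1) R R' with hg
  have hgc : ContDiff ℝ 1 g := contDiff_cutBall R R'
  have hcs : HasCompactSupport g := hasCompactSupport_cutBall hR h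
  have hfd := hX.continuous_fderiv one_ne_zero
  have hgd := hgc.continuous_fderiv one_ne_zero
  have hXc := hX.continuous
  have hXi : ∀ i, ContDiff ℝ 1 (fun x => X x i) := fun i => contDiff_pi.mp hX i
  have hXi' : ∀ i x, fderiv ℝ (fun x => X x i) x (Pi.single i 1) =
      fderiv ℝ X x (Pi.single i 1) i := by
    intro i x
    rw [fderiv_apply (hX.differentiable one_ne_zero x)]
    rfl
  have hparts : ∀ i, ∫ x, g x * fderiv ℝ X x (Pi.single i 1) i =
      - ∫ x, fderiv ℝ g x (Pi.single i 1) * X x i := by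
    intro i
    simp_rw [← hXi']
    apply integral_mul_fderiv_eq_neg_fderiv_mul_of_integrable
    · apply Continuous.integrable_of_hasCompactSupport
      · exact (hgd.clm_apply continuous_const).mul (hXi i).continuous
      · apply HasCompactSupport.mul_right
        exact (hcs.fderiv_apply ℝ _)
    · apply Continuous.integrable_of_hasCompactSupport
      · exact hgc.continuous.mul (((hXi i).continuous_fderiv one_ne_zero).clm_apply continuous_const)
      · exact hcs.mul_right
    · apply Continuous.integrable_of_hasCompactSupport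
      · exact hgc.continuous.mul (hXi i).continuous
      · exact hcs.mul_right
    · intro x _
      exact hgc.differentiable one_ne_zero x
    · intro x _
      exact (hXi i).differentiable one_ne_zero x
  have h1 : ∫ x, g x * divergence X x = ∑ i, ∫ x, g x * fderiv ℝ X x (Pi.single i 1) i := by
    unfold divergence
    simp_rw [Finset.mul_sum]
    rw [integral_finsetSum]
    intro i _
    exact tsupport_cutBall_mul hR h ((continuous_apply i).comp (hfd.clm_apply continuous_const))
  have hint : ∀ i, Integrable (fun x => fderiv ℝ g x (Pi.single i 1) * X x i) := by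
    intro i
    apply Continuous.integrable_of_hasCompactSupport
    · exact (hgd.clm_apply continuous_const).mul (hXi i).continuous
    · apply HasCompactSupport.mul_right
      exact (hcs.fderiv_apply ℝ _)
  have h2 : ∫ x, g x * divergence X x =
      ∫ x, - ∑ i, fderiv ℝ g x (Pi.single i 1) * X x i := by
    rw [h1, integral_neg, integral_finsetSum _ (fun i _ => hint i), ← Finset.sum_neg_distrib]
    exact Finset.sum_congr rfl fun i _ => hparts i
  have hgn : HasCompactSupport (gradNorm g) := by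
    have := (hcs.fderiv (𝕜 := ℝ)).comp_left
      (g := fun L : (Fin (n + 1) → ℝ) →L[ℝ] ℝ => Real.sqrt (∑ i, (L (Pi.single i 1)) ^ 2))
      (by simp)
    exact this
  rw [h2]
  refine le_trans (integral_mono ?_ ?_ ?_) (integral_gradNorm_cutBall_le hR h)
  · exact (integrable_finsetSum _ fun i _ => hint i).neg
  · exact (continuous_gradNorm hgc).integrable_of_hasCompactSupport hgn
  · intro x
    have h1 := abs_sum_mul_le (fun i => fderiv ℝ g x (Pi.single i 1)) (X x)
    have h2 : Real.sqrt (∑ i, X x i ^ 2) ≤ 1 :=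
      Real.sqrt_le_iff.mpr ⟨zero_le_one, by simpa using hb x⟩
    have h3 : |∑ i, fderiv ℝ g x (Pi.single i 1) * X x i| ≤ gradNorm g x := by
      refine h1.trans ?_
      exact mul_le_of_le_one_right (Real.sqrt_nonneg _) h2
    have h4 := neg_le_abs (∑ i, fderiv ℝ g x (Pi.single i 1) * X x i)
    exact h4.trans h3

theorem ball_le {n : ℕ} {R : ℝ} (hR : 0 < R)
    {X : (Fin (n + 1) → ℝ) → (Fin (n + 1) → ℝ)} (hX : ContDiff ℝ 1 X)
    (hb : ∀ x, ∑ i, X x i ^ 2 ≤ 1) :
    ∫ x in {x | qd x < R ^ 2}, divergence X x ≤ (n + 1) * omega (n + 1) * R ^ n := by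
  have hdc := continuous_divergence hX
  obtain ⟨K, hK⟩ := (isCompact_closedBall (fun _ : Fin (n + 1) => (1 / 2 : ℝ))
    (R + 1)).exists_bound_of_continuousOn hdc.continuousOn
  have key : ∀ R' ∈ Ioo R (R + 1), ∫ x in {x | qd x < R ^ 2}, divergence X x ≤
      (n + 1) * omega (n + 1) * R' ^ n + K * (omega (n + 1) * R' ^ (n + 1) -
        omega (n + 1) * R ^ (n + 1)) := by
    intro R' hR'
    have hlt : R < R' := hR'.1
    have hR'0 : 0 < R' := hR.trans hlt
    have h1 := cutBall_le hR hlt hX hb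
    set g := cutBall (n := n + 1) R R' with hg
    have hsq : R ^ 2 < R' ^ 2 := by nlinarith only [hR, hlt]
    have hg1 : ∀ x, qd x < R ^ 2 → g x = 1 := fun x hx => cutoff_of_le hsq hx.le
    have hg0 : ∀ x, ¬ qd x < R' ^ 2 → g x = 0 := fun x hx => cutoff_of_ge hsq (not_lt.mp hx)
    set B := {x : Fin (n + 1) → ℝ | qd x < R ^ 2} with hB
    set B' := {x : Fin (n + 1) → ℝ | qd x < R' ^ 2} with hB'
    have hBB' : B ⊆ B' := fun x hx => lt_trans (show qd x < R ^ 2 from hx) hsq
    have hBm : MeasurableSet B := measurableSet_qd_lt R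
    have hB'm : MeasurableSet B' := measurableSet_qd_lt R'
    have hv' : volume B' ≠ ⊤ := volume_qd_lt_ne_top hR'0
    have hv : volume B ≠ ⊤ := volume_qd_lt_ne_top hR
    have hint : Integrable (fun x => g x * divergence X x) := tsupport_cutBall_mul hR hlt hdc
    have e1 : ∫ x in B', g x * divergence X x = ∫ x, g x * divergence X x := by
      apply setIntegral_eq_integral_of_forall_compl_eq_zero
      intro x hx
      rw [hg0 x hx, zero_mul]
    have e2 : ∫ x in B, g x * divergence X x = ∫ x in B, divergence X x := by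
      apply setIntegral_congr_fun hBm
      intro x hx
      simp only
      rw [hg1 x hx, one_mul]
    have e3 : ∫ x in B' \ B, g x * divergence X x =
        (∫ x in B', g x * divergence X x) - ∫ x in B, g x * divergence X x :=
      setIntegral_sdiff hBm hint.integrableOn hBB'
    have e4 : ‖∫ x in B' \ B, g x * divergence X x‖ ≤ K * volume.real (B' \ B) := by
      apply norm_setIntegral_le_of_norm_le_const
      · exact (measure_mono sdiff_subset).trans_lt hv'.lt_top
      · intro x hx
        have h5 : 0 ≤ g x := cutoff_nonneg R R' (qd x)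
        have h3 : g x ≤ 1 := cutoff_le_one R R' (qd x)
        rw [norm_mul, Real.norm_eq_abs, Real.norm_eq_abs, abs_of_nonneg h5]
        have h4 : |divergence X x| ≤ K :=
          hK x (Metric.closedBall_subset_closedBall hR'.2.le (qd_subset hR'0 hx.1))
        calc g x * |divergence X x| ≤ 1 * K := by gcongr
          _ = K := one_mul K
    have e5 : volume.real (B' \ B) = omega (n + 1) * R' ^ (n + 1) -
        omega (n + 1) * R ^ (n + 1) := by
      rw [measureReal_sdiff hBB' hBm hv']
      unfold Measure.real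
      rw [volume_qd_lt hR'0, volume_qd_lt hR]
    rw [e5, Real.norm_eq_abs] at e4
    have e6 := neg_le_of_abs_le e4
    rw [e3, e1, e2] at e6
    linarith only [h1, e6]
  have hlim : Tendsto (fun R' : ℝ => (n + 1) * omega (n + 1) * R' ^ n +
      K * (omega (n + 1) * R' ^ (n + 1) - omega (n + 1) * R ^ (n + 1))) (𝓝[>] R)
      (𝓝 ((n + 1) * omega (n + 1) * R ^ n +
      K * (omega (n + 1) * R ^ (n + 1) - omega (n + 1) * R ^ (n + 1)))) := by
    apply Tendsto.mono_left _ nhdsWithin_le_nhds
    apply Continuous.tendsto (f := fun R' : ℝ => (n + 1) * omega (n + 1) * R' ^ n +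
      K * (omega (n + 1) * R' ^ (n + 1) - omega (n + 1) * R ^ (n + 1)))
    fun_prop
  have h2 := ge_of_tendsto hlim (by
    filter_upwards [Ioo_mem_nhdsGT (lt_add_one R)] with R' h using key R' h)
  simpa using h2

/-- The cylinder of height `a` over `A`. -/
def cyl (a : ℝ) (A : Set (Fin 2 → ℝ)) : Set V3 :=
  MeasurableEquiv.piFinSuccAbove (fun _ : Fin 3 => ℝ) 0 ⁻¹' (Ioo 0 a ×ˢ A)

theorem mem_cyl {a : ℝ} {A : Set (Fin 2 → ℝ)} {x : V3} :
    x ∈ cyl a A ↔ (0 < x 0 ∧ x 0 < a) ∧ (fun j : Fin 2 => x j.succ) ∈ A := Iff.rfl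

theorem measurableSet_cyl (a : ℝ) {A : Set (Fin 2 → ℝ)} (hA : MeasurableSet A) :
    MeasurableSet (cyl a A) :=
  (MeasurableEquiv.measurable _) (measurableSet_Ioo.prod hA)

theorem volume_cyl (a : ℝ) {A : Set (Fin 2 → ℝ)} (hA : MeasurableSet A) :
    volume (cyl a A) = ENNReal.ofReal a * volume A := by
  rw [cyl, (volume_preserving_piFinSuccAbove (fun _ : Fin 3 => ℝ) 0).measure_preimage
    (measurableSet_Ioo.prod hA).nullMeasurableSet, Measure.volume_eq_prod, Measure.prod_prod]
  simp

theorem cyl_le {a : ℝ} (ha : 0 < a) {A K : Set (Fin 2 → ℝ)} (hK : IsCompact K) (hA : A ⊆ K)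
    {X : V3 → V3} (hX : ContDiff ℝ 1 X) (hp : ∀ x, X (x + Pi.single 0 a) = X x) {P : ℝ}
    (hP : ∀ t, ∫ y in A, divergence (sliceField 0 X t) y ≤ P) :
    ∫ x in cyl a A, divergence X x ≤ a * P := by
  have hmp := volume_preserving_piFinSuccAbove (fun _ : Fin 3 => ℝ) 0
  have h1 := hmp.setIntegral_preimage_emb (MeasurableEquiv.measurableEmbedding _)
    (fun z => divergence X ((0 : Fin 3).insertNth (α := fun _ => ℝ) z.1 z.2)) (Ioo 0 a ×ˢ A)
  have h2 : ∀ x : V3, (0 : Fin 3).insertNth (α := fun _ => ℝ)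
      (MeasurableEquiv.piFinSuccAbove (fun _ : Fin 3 => ℝ) 0 x).1
      (MeasurableEquiv.piFinSuccAbove (fun _ : Fin 3 => ℝ) 0 x).2 = x := fun x =>
    Fin.insertNth_self_removeNth 0 x
  simp only [h2] at h1
  have hint : ∀ {g : ℝ × (Fin 2 → ℝ) → ℝ}, Continuous g →
      IntegrableOn g (Ioo 0 a ×ˢ A) (volume.prod volume) := fun hg =>
    (hg.continuousOn.integrableOn_compact (isCompact_Icc.prod hK)).mono_set
      (prod_mono Ioo_subset_Icc_self hA)
  have hXi : ContDiff ℝ 1 (fun x => X x 0) := contDiff_pi.mp hX 0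
  have c1 : Continuous fun z : ℝ × (Fin 2 → ℝ) => fderiv ℝ (fun x => X x 0)
      ((0 : Fin 3).insertNth (α := fun _ => ℝ) z.1 z.2) (Pi.single 0 1) :=
    ((hXi.continuous_fderiv one_ne_zero).clm_apply continuous_const).comp
      (continuous_insertNth' (0 : Fin 3))
  have c2 : Continuous fun z : ℝ × (Fin 2 → ℝ) => divergence (sliceField 0 X z.1) z.2 :=
    (((continuous_divergence hX).comp (continuous_insertNth' (0 : Fin 3))).sub c1).congr
      fun z => sub_eq_of_eq_add' (divergence_insertNth 0 hX z.1 z.2)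
  have e1 : ∫ z in Ioo 0 a ×ˢ A, fderiv ℝ (fun x => X x 0)
      ((0 : Fin 3).insertNth (α := fun _ => ℝ) z.1 z.2) (Pi.single 0 1) ∂(volume.prod volume)
      = 0 := by
    have h3 := hint c1
    rw [IntegrableOn, ← Measure.prod_restrict] at h3
    rw [← Measure.prod_restrict, integral_prod_symm _ h3]
    refine integral_eq_zero_of_ae (Eventually.of_forall fun y => ?_)
    have h4 : ∀ t ∈ uIcc (0 : ℝ) a, HasDerivAt
        (fun t => X ((0 : Fin 3).insertNth (α := fun _ => ℝ) t y) 0)
        (fderiv ℝ (fun x => X x 0) ((0 : Fin 3).insertNth (α := fun _ => ℝ) t y)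
          (Pi.single 0 1)) t := fun t _ =>
      (hXi.differentiable one_ne_zero _).hasFDerivAt.comp_hasDerivAt t
        (hasDerivAt_insertNth 0 t y)
    have h5 : (0 : Fin 3).insertNth (α := fun _ => ℝ) a y =
        (0 : Fin 3).insertNth (α := fun _ => ℝ) 0 y + Pi.single 0 a := by
      ext j
      refine Fin.succAboveCases 0 ?_ (fun j => ?_) j <;> simp
    simp only [Pi.zero_apply]
    rw [← integral_Ioc_eq_integral_Ioo, ← intervalIntegral.integral_of_le ha.le,
      intervalIntegral.integral_eq_sub_of_hasDerivAt h4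
        ((c1.comp (continuous_id.prodMk continuous_const)).intervalIntegrable _ _), h5, hp,
      sub_self]
  rw [cyl, h1]
  simp only [divergence_insertNth 0 hX]
  rw [Measure.volume_eq_prod, integral_add (hint c1) (hint c2), e1, zero_add,
    setIntegral_prod _ (hint c2)]
  have h6 := hint c2
  rw [IntegrableOn, ← Measure.prod_restrict] at h6
  refine (integral_mono h6.integral_prod_left (integrable_const P) fun t => hP t).trans ?_
  simp [ha.le]

theorem tube_le {a R : ℝ} (ha : 0 < a) (hR : 0 < R) {X : V3 → V3} (hX : ContDiff ℝ 1 X)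
    (hb : ∀ x, ∑ i, X x i ^ 2 ≤ 1) (hp : ∀ x, X (x + Pi.single 0 a) = X x) :
    ∫ x in cyl a {y | qd y < R ^ 2}, divergence X x ≤ a * (2 * Real.pi * R) := by
  refine cyl_le ha (isCompact_closedBall _ _) (qd_subset hR) hX hp fun t => ?_
  have h := ball_le (n := 1) hR (contDiff_sliceField 0 hX t) fun y => by
    have h := hb ((0 : Fin 3).insertNth (α := fun _ => ℝ) t y)
    rw [Fin.sum_univ_succAbove _ 0] at h
    unfold sliceField
    linarith only [sq_nonneg (X ((0 : Fin 3).insertNth (α := fun _ => ℝ) t y) 0), h]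
  rw [omega_two] at h
  exact h.trans (le_of_eq (by norm_num))

theorem box_flux {a b w : ℝ} (ha : 0 < a) (hb : 0 < b) (hw : 0 < w) {X : V3 → V3}
    (hX : ContDiff ℝ 1 X) (h0 : ∀ x, X (x + Pi.single 0 a) = X x)
    (h1 : ∀ x, X (x + Pi.single 1 b) = X x) :
    ∫ x in bx 0 ![a, b, w], divergence X x =
      (∫ y in Icc (0 : Fin 2 → ℝ) ![a, b], X (![y 0, y 1, 0] + Pi.single 2 w) 2) -
        ∫ y in Icc (0 : Fin 2 → ℝ) ![a, b], X ![y 0, y 1, 0] 2 := by
  have hle : (0 : V3) ≤ ![a, b, w] := fun i => by fin_cases i <;> simp [ha.le, hb.le, hw.le]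
  have key := integral_divergence_of_hasFDerivAt_off_countable (0 : V3) ![a, b, w]
    hle X (fderiv ℝ X) ∅ countable_empty hX.continuous.continuousOn
    (fun x _ => (hX.differentiable one_ne_zero x).hasFDerivAt)
    ((continuous_divergence hX).continuousOn.integrableOn_compact isCompact_Icc)
  have hi : ∀ (i : Fin 3) (t : ℝ) (y : Fin 2 → ℝ), i.insertNth (α := fun _ => ℝ) t y =
      i.insertNth (α := fun _ => ℝ) 0 y + Pi.single i t := fun i t y => by
    ext j
    refine Fin.succAboveCases i ?_ (fun j => ?_) j <;> simp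
  have h2 : ∀ y : Fin 2 → ℝ, (2 : Fin 3).insertNth (α := fun _ => ℝ) 0 y = ![y 0, y 1, 0] :=
    fun y => by
      ext j
      fin_cases j <;> rfl
  have h3 : (![a, b, w] : V3) ∘ (2 : Fin 3).succAbove = ![a, b] := by
    ext j
    fin_cases j <;> rfl
  rw [setIntegral_congr_set (show bx 0 ![a, b, w] =ᵐ[volume] Icc 0 ![a, b, w] from
    Measure.univ_pi_Ioo_ae_eq_Icc)]
  refine key.trans ?_
  rw [Fin.sum_univ_three]
  simp only [Pi.zero_apply, Matrix.cons_val_zero, Matrix.cons_val_one, Matrix.cons_val]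
  simp only [hi 0 a, hi 1 b, hi 2 w, h0, h1, sub_self, zero_add, h2, h3]
  rfl

/-- The shear. -/
noncomputable def sh (p q r : ℝ) : V3 →L[ℝ] V3 :=
  LinearMap.toContinuousLinearMap (Matrix.toLin' !![1, p, q; 0, 1, r; 0, 0, 1])

theorem sh_apply (p q r : ℝ) (x : V3) :
    sh p q r x = ![x 0 + p * x 1 + q * x 2, x 1 + r * x 2, x 2] := by
  ext i
  fin_cases i <;> simp [sh, Matrix.vecHead, Matrix.vecTail, add_assoc]

theorem sh_sh (p q r : ℝ) (x : V3) : sh (-p) (p * r - q) (-r) (sh p q r x) = x := by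
  rw [sh_apply, sh_apply]
  ext i
  fin_cases i <;> simp
  ring

theorem sh_injective (p q r : ℝ) : Function.Injective (sh p q r) :=
  Function.LeftInverse.injective (sh_sh p q r)

theorem integral_sh (p q r : ℝ) {S : Set V3} (hS : MeasurableSet S) (g : V3 → ℝ) :
    ∫ x in sh p q r '' S, g x = ∫ x in S, g (sh p q r x) := by
  rw [integral_image_eq_integral_abs_det_fderiv_smul volume hS
    (fun y _ => (sh p q r).hasFDerivAt.hasFDerivWithinAt) (sh_injective p q r).injOn]
  simp [sh, ContinuousLinearMap.det, Matrix.det_fin_three]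

theorem measurableSet_sh (p q r : ℝ) {S : Set V3} (hS : MeasurableSet S) :
    MeasurableSet (sh p q r '' S) :=
  hS.image_of_continuousOn_injOn (sh p q r).continuous.continuousOn (sh_injective p q r).injOn

theorem volume_sh (p q r : ℝ) {S : Set V3} (hS : MeasurableSet S) :
    volume (sh p q r '' S) = volume S := by
  rw [← lintegral_abs_det_fderiv_eq_addHaar_image volume hS
    (fun y _ => (sh p q r).hasFDerivAt.hasFDerivWithinAt) (sh_injective p q r).injOn]
  simp [sh, ContinuousLinearMap.det, Matrix.det_fin_three]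

theorem divergence_sh (p q r : ℝ) {X : V3 → V3} (hX : ContDiff ℝ 1 X) (x : V3) :
    divergence (fun y => sh (-p) (p * r - q) (-r) (X (sh p q r y))) x =
      divergence X (sh p q r x) := by
  have h : HasFDerivAt (fun y => sh (-p) (p * r - q) (-r) (X (sh p q r y))) _ x :=
    (sh (-p) (p * r - q) (-r)).hasFDerivAt.comp x
      ((hX.differentiable one_ne_zero _).hasFDerivAt.comp x (sh p q r).hasFDerivAt)
  have e0 : sh p q r (Pi.single 0 1) = Pi.single 0 1 := by
    rw [sh_apply]
    ext i
    fin_cases i <;> simp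
  have e1 : sh p q r (Pi.single 1 1) = p • Pi.single 0 1 + Pi.single 1 1 := by
    rw [sh_apply]
    ext i
    fin_cases i <;> simp
  have e2 : sh p q r (Pi.single 2 1) = q • Pi.single 0 1 + r • Pi.single 1 1 + Pi.single 2 1 := by
    rw [sh_apply]
    ext i
    fin_cases i <;> simp
  rw [divergence, divergence, h.fderiv]
  simp only [Fin.sum_univ_three, ContinuousLinearMap.comp_apply, e0, e1, e2, map_add, map_smul,
    sh_apply (-p)]
  simp
  ring

/-- The flux through the boundary of a sheared box. -/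
theorem slab_flux {a b w p q r : ℝ} (ha : 0 < a) (hb : 0 < b) (hw : 0 < w) {X : V3 → V3}
    (hX : ContDiff ℝ 1 X) (h0 : ∀ x, X (x + sh p q r (Pi.single 0 a)) = X x)
    (h1 : ∀ x, X (x + sh p q r (Pi.single 1 b)) = X x) :
    ∫ x in sh p q r '' bx 0 ![a, b, w], divergence X x =
      (∫ y in Icc (0 : Fin 2 → ℝ) ![a, b],
        X (sh p q r ![y 0, y 1, 0] + sh p q r (Pi.single 2 w)) 2) -
        ∫ y in Icc (0 : Fin 2 → ℝ) ![a, b], X (sh p q r ![y 0, y 1, 0]) 2 := by
  rw [integral_sh p q r (isOpen_bx _ _).measurableSet]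
  simp only [← divergence_sh p q r hX]
  rw [box_flux ha hb hw (X := fun y => sh (-p) (p * r - q) (-r) (X (sh p q r y)))
    ((sh (-p) (p * r - q) (-r)).contDiff.comp (hX.comp (sh p q r).contDiff))
    (fun x => by simp only [map_add, h0]) (fun x => by simp only [map_add, h1])]
  simp only [map_add, sh_apply (-p), Matrix.cons_val]

theorem slab_le {a b w p q r : ℝ} (ha : 0 < a) (hb : 0 < b) (hw : 0 < w) {X : V3 → V3}
    (hX : ContDiff ℝ 1 X) (hs : ∀ x, ∑ i, X x i ^ 2 ≤ 1)
    (h0 : ∀ x, X (x + sh p q r (Pi.single 0 a)) = X x)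
    (h1 : ∀ x, X (x + sh p q r (Pi.single 1 b)) = X x) :
    ∫ x in sh p q r '' bx 0 ![a, b, w], divergence X x ≤ 2 * a * b := by
  have h2 : ∀ f : (Fin 2 → ℝ) → V3, |∫ y in Icc (0 : Fin 2 → ℝ) ![a, b], X (f y) 2| ≤ a * b := by
    intro f
    refine (norm_setIntegral_le_of_norm_le_const (μ := (volume : Measure (Fin 2 → ℝ))) (C := 1)
      (f := fun y => X (f y) 2) isCompact_Icc.measure_lt_top
      fun y _ => ?_).trans (le_of_eq ?_)
    · refine abs_le_one_iff_mul_self_le_one.2 ?_
      have h3 := hs (f y)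
      rw [Fin.sum_univ_three] at h3
      nlinarith [sq_nonneg (X (f y) 0), sq_nonneg (X (f y) 1)]
    · rw [one_mul, Measure.real, Real.volume_Icc_pi_toReal
        (fun i => by fin_cases i <;> simp [ha.le, hb.le])]
      simp
  rw [slab_flux ha hb hw hX h0 h1]
  linarith [abs_le.1 (h2 fun y => sh p q r ![y 0, y 1, 0] + sh p q r (Pi.single 2 w)),
    abs_le.1 (h2 fun y => sh p q r ![y 0, y 1, 0])]

end Vale.Agent.N232
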