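import Vale.Agent.N232.Quot
import Vale.Agent.N232.Up

/-! The isoperimetric inequality in the quotients by triangular lattices. -/

open MeasureTheory Set Filter Topology

namespace Vale.Agent.N232

open Vale.Agent.P232

variable {a b c p q r : ℝ}

theorem zm_eq_zero {t x : ℝ} (h : x ∈ AddSubgroup.zmultiples t) (hx : t = 0 ∨ |x| < t) :
    x = 0 := by
  obtain ⟨k, rfl⟩ := AddSubgroup.mem_zmultiples_iff.1 h
  rcases hx with rfl | hx
  · simp
  have ht : 0 < t := (abs_nonneg _).trans_lt hx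
  rw [zsmul_eq_mul, abs_mul, abs_of_pos ht, mul_lt_iff_lt_one_left ht, ← Int.cast_abs,
    ← Int.cast_one, Int.cast_lt, Int.abs_lt_one_iff] at hx
  simp [hx]

theorem pr_eq2 {x y : V3} (h : pr (L a b c p q r) x = pr _ y) (h2 : c = 0 ∨ |x 2 - y 2| < c) :
    x 2 = y 2 := sub_eq_zero.1 (zm_eq_zero (mem_L.1 (pr_eq_iff.1 h)).2.2 h2)

theorem pr_eq1 {x y : V3} (h : pr (L a b c p q r) x = pr _ y) (h2 : x 2 = y 2)
    (h1 : |x 1 - y 1| < b) : x 1 = y 1 :=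
  sub_eq_zero.1 (zm_eq_zero (by simpa [h2] using (mem_L.1 (pr_eq_iff.1 h)).2.1) (Or.inr h1))

theorem pr_eq0 {x y : V3} (h : pr (L a b c p q r) x = pr _ y) (h2 : x 2 = y 2) (h1 : x 1 = y 1)
    (h0 : |x 0 - y 0| < a) : x = y := by
  have h3 : x 0 = y 0 :=
    sub_eq_zero.1 (zm_eq_zero (by simpa [h2, h1] using (mem_L.1 (pr_eq_iff.1 h)).1) (Or.inr h0))
  ext i
  fin_cases i
  exacts [h3, h1, h2]

theorem pr_eq {x y : V3} (h : pr (L a b c p q r) x = pr _ y) (h0 : |x 0 - y 0| < a)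
    (h1 : |x 1 - y 1| < b) (h2 : c = 0 ∨ |x 2 - y 2| < c) : x = y :=
  pr_eq0 h (pr_eq2 h h2) (pr_eq1 h (pr_eq2 h h2) h1) h0

theorem sys_L (ha : 0 < a) (hab : a ≤ b) (hc : c = 0 ∨ b ≤ c) : Sys (L a b c p q r) := by
  refine ⟨a, ha, fun g hg h => not_lt.1 fun h1 => h ?_⟩
  have h2 : ∀ i, |g.ofLp i - (0 : V3) i| < a := fun i => by
    simpa using (PiLp.norm_apply_le g i).trans_lt h1
  have h3 := pr_eq (x := g.ofLp) (y := 0) (pr_eq_iff.2 (by simpa using hg)) (h2 0)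
    ((h2 1).trans_le hab) (hc.imp_right fun h => (h2 2).trans_le (hab.trans h))
  exact (WithLp.ofLp_eq_zero 2).1 h3

theorem pr_sh {x y : V3} : pr (L a b c p q r) (sh p q r x) = pr _ (sh p q r y) ↔
    x 0 - y 0 ∈ AddSubgroup.zmultiples a ∧ x 1 - y 1 ∈ AddSubgroup.zmultiples b ∧
      x 2 - y 2 ∈ AddSubgroup.zmultiples c := by
  rw [pr_eq_iff, mem_L, ← map_sub, sh_apply]
  simp only [Matrix.cons_val_zero, Matrix.cons_val_one, Matrix.cons_val, Pi.sub_apply,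
    add_sub_cancel_right]
  rw [show ∀ x y z : ℝ, x + y + z - y - z = x from fun _ _ _ => by ring]

theorem sh_surjective (p q r : ℝ) : Function.Surjective (sh p q r) := fun x =>
  ⟨sh (-p) (p * r - q) (-r) x, by simpa using sh_sh (-p) (p * r - q) (-r) x⟩

theorem pr_add (x : V3) (i : Fin 3) :
    pr (L a b c p q r) (x + sh p q r (Pi.single i (![a, b, c] i))) = pr _ x := by
  obtain ⟨x, rfl⟩ := sh_surjective p q r x
  rw [← map_add, pr_sh]
  fin_cases i <;> simp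

theorem sh0 : sh p q r (Pi.single 0 a) = ![a, 0, 0] := by simp [sh_apply]

theorem sh1 : sh p q r (Pi.single 1 b) = ![p * b, b, 0] := by simp [sh_apply]

theorem sh2 : sh p q r (Pi.single 2 c) = ![q * c, r * c, c] := by simp [sh_apply]

theorem exists_rep {t : ℝ} (ht : 0 < t) (x : ℝ) :
    ∃ y, 0 ≤ y ∧ y < t ∧ y - x ∈ AddSubgroup.zmultiples t :=
  ⟨toIcoMod ht 0 x, (toIcoMod_mem_Ico' ht x).1, (toIcoMod_mem_Ico' ht x).2,
    ⟨-toIcoDiv ht 0 x, (toIcoMod_sub_self ht 0 x).symm⟩⟩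

theorem cell_vol (ha : 0 < a) (hab : a ≤ b) (hc : c = 0 ∨ b ≤ c)
    {E : Set (R3 ⧸ L a b c p q r)} (hE : MeasurableSet E) : vol _ E = volume (pr _ ⁻¹' E ∩
      {x | (0 < x 0 ∧ x 0 < a) ∧ (0 < x 1 ∧ x 1 < b) ∧ (c = 0 ∨ 0 < x 2 ∧ x 2 < c)}) := by
  have hb := ha.trans_le hab
  set C : Set V3 := {x | (0 ≤ x 0 ∧ x 0 < a) ∧ (0 ≤ x 1 ∧ x 1 < b) ∧ (c = 0 ∨ 0 ≤ x 2 ∧ x 2 < c)}
    with hC
  have hm : MeasurableSet C := by
    rw [hC]
    measurability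
  have hi : InjOn (pr (L a b c p q r)) C := fun x hx y hy h =>
    pr_eq h (abs_sub_lt_iff.2 ⟨by linarith [hx.1.2, hy.1.1], by linarith [hx.1.1, hy.1.2]⟩)
      (abs_sub_lt_iff.2 ⟨by linarith [hx.2.1.2, hy.2.1.1], by linarith [hx.2.1.1, hy.2.1.2]⟩)
      (hx.2.2.elim Or.inl fun h1 => hy.2.2.imp_right fun h2 =>
        abs_sub_lt_iff.2 ⟨by linarith [h1.2, h2.1], by linarith [h1.1, h2.2]⟩)
  have hs : pr (L a b c p q r) '' C = univ := by
    refine eq_univ_of_forall fun z => ?_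
    obtain ⟨x, rfl⟩ := pr_surjective z
    obtain ⟨y2, h2, h2'⟩ : ∃ y, (c = 0 ∨ 0 ≤ y ∧ y < c) ∧ y - x 2 ∈ AddSubgroup.zmultiples c := by
      rcases hc with h | h
      · exact ⟨x 2, Or.inl h, by simp⟩
      · obtain ⟨y, h1, h2, h3⟩ := exists_rep (hb.trans_le h) (x 2)
        exact ⟨y, Or.inr ⟨h1, h2⟩, h3⟩
    obtain ⟨y1, h1, h1', h1''⟩ := exists_rep hb (x 1 + r * (y2 - x 2))
    obtain ⟨y0, h0, h0', h0''⟩ :=
      exists_rep ha (x 0 + p * (y1 - x 1 - r * (y2 - x 2)) + q * (y2 - x 2))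
    refine ⟨![y0, y1, y2], ⟨⟨h0, h0'⟩, ⟨h1, h1'⟩, h2⟩, pr_eq_iff.2 (mem_L.2 ⟨?_, ?_, h2'⟩)⟩
    · simpa [sub_sub] using h0''
    · simpa [sub_sub] using h1''
  have h1 : E = pr _ '' (pr _ ⁻¹' E ∩ C) := by rw [image_preimage_inter, hs, inter_univ]
  conv_lhs => rw [h1]
  rw [vol_image (sys_L ha hab hc) ((measurable_pr hE).inter hm) (hi.mono inter_subset_right)]
  refine measure_congr ((ae_eq_refl _).inter ?_)
  filter_upwards [Measure.ae_eval_ne (fun _ : Fin 3 => (volume : Measure ℝ)) 0 0,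
    Measure.ae_eval_ne (fun _ : Fin 3 => (volume : Measure ℝ)) 1 0,
    Measure.ae_eval_ne (fun _ : Fin 3 => (volume : Measure ℝ)) 2 0] with x h0 h1 h2
  refine propext ?_
  change (0 ≤ x 0 ∧ x 0 < a) ∧ (0 ≤ x 1 ∧ x 1 < b) ∧ (c = 0 ∨ 0 ≤ x 2 ∧ x 2 < c) ↔
    (0 < x 0 ∧ x 0 < a) ∧ (0 < x 1 ∧ x 1 < b) ∧ (c = 0 ∨ 0 < x 2 ∧ x 2 < c)
  simp only [h0.symm.le_iff_lt, h1.symm.le_iff_lt, h2.symm.le_iff_lt]

section

variable {E : Set (R3 ⧸ L a b c p q r)}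

theorem shift_L (E : Set (R3 ⧸ L a b c p q r)) (i : Fin 3) (l u : V3) :
    mass (pr _ ⁻¹' E) (l + sh p q r (Pi.single i (![a, b, c] i)))
      (u + sh p q r (Pi.single i (![a, b, c] i))) = mass (pr _ ⁻¹' E) l u :=
  mass_shift (fun x => by rw [mem_preimage, pr_add, mem_preimage]) l u

theorem mass0 {F : Set V3} (hF : MeasurableSet F) (y0 y1 z0 z1 : ℝ) :
    Mass fun s t => mass F ![s, y0, z0] ![t, y1, z1] := by
  simpa only [up0] using mass_window hF ![0, y0, z0] ![0, y1, z1] 0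

theorem mass1 {F : Set V3} (hF : MeasurableSet F) (x0 x1 z0 z1 : ℝ) :
    Mass fun s t => mass F ![x0, s, z0] ![x1, t, z1] := by
  simpa only [up1] using mass_window hF ![x0, 0, z0] ![x1, 0, z1] 1

theorem mass2 {F : Set V3} (hF : MeasurableSet F) (x0 x1 y0 y1 : ℝ) :
    Mass fun s t => mass F ![x0, y0, s] ![x1, y1, t] := by
  simpa only [up2] using mass_window hF ![x0, y0, 0] ![x1, y1, 0] 2

theorem per0 (E : Set (R3 ⧸ L a b c p q r)) (y0 y1 z0 z1 s t : ℝ) :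
    mass (pr _ ⁻¹' E) ![s + a, y0, z0] ![t + a, y1, z1] =
      mass (pr _ ⁻¹' E) ![s, y0, z0] ![t, y1, z1] := by
  simpa [sh0] using shift_L E 0 ![s, y0, z0] ![t, y1, z1]

theorem per1 (ha : 0 < a) (hE : MeasurableSet E) (z0 z1 s t : ℝ) :
    mass (pr _ ⁻¹' E) ![0, s + b, z0] ![0 + a, t + b, z1] =
      mass (pr _ ⁻¹' E) ![0, s, z0] ![0 + a, t, z1] := by
  rw [← (mass0 (measurable_pr hE) (s + b) (t + b) z0 z1).const ha (per0 E _ _ _ _) 0 (p * b)]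
  simpa [sh1, add_comm] using shift_L E 1 ![0, s, z0] ![0 + a, t, z1]

theorem per2 (ha : 0 < a) (hb : 0 < b) (hE : MeasurableSet E) (s t : ℝ) :
    mass (pr _ ⁻¹' E) ![0, 0, s + c] ![0 + a, 0 + b, t + c] =
      mass (pr _ ⁻¹' E) ![0, 0, s] ![0 + a, 0 + b, t] := by
  rw [← (mass1 (measurable_pr hE) 0 (0 + a) (s + c) (t + c)).const hb (per1 ha hE _ _) 0 (r * c),
    ← (mass0 (measurable_pr hE) (r * c) (r * c + b) (s + c) (t + c)).const ha (per0 E _ _ _ _) 0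
      (q * c)]
  simpa [sh2, add_comm] using shift_L E 2 ![0, 0, s] ![0 + a, 0 + b, t]

/-- Two boxes. -/
theorem lowX (ha : 0 < a) (hab : a ≤ b) (hE : MeasurableSet E) (y : ℝ) {z0 z1 w : ℝ}
    (hz : b / 2 ≤ z1 - z0) (hw : 0 ≤ w)
    (h1 : w ≤ mass (pr _ ⁻¹' E) ![0, y, z0] ![0 + a, y + b / 2, z1])
    (h2 : w ≤ a * (b / 2) * (z1 - z0) - mass (pr _ ⁻¹' E) ![0, y, z0] ![0 + a, y + b / 2, z1]) :
    ∃ s, ENNReal.ofReal (J a b (4 * w) / 4) ≤
      rp (pr _ ⁻¹' E) (bx ![s, y, z0] ![s + a, y + b / 2, z1]) := by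
  have hF := measurable_pr hE
  obtain ⟨s, e1, e2⟩ := (mass0 hF y (y + b / 2) z0 z1).bisect ha (per0 E _ _ _ _) 0
  have key : ∀ s t, t - s = a / 2 → mass (pr _ ⁻¹' E) ![s, y, z0] ![t, y + b / 2, z1] =
      mass (pr _ ⁻¹' E) ![0, y, z0] ![0 + a, y + b / 2, z1] / 2 →
      ENNReal.ofReal (J a b (4 * w) / 8) ≤
        rp (pr _ ⁻¹' E) (bx ![s, y, z0] ![t, y + b / 2, z1]) := by
    intro s t h e
    have h3 := box hF (a := a / 2) (b := b / 2) (by linarith) (by linarith) (l := ![s, y, z0])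
      (u := ![t, y + b / 2, z1]) h (by simp) hz (v := w / 2) (by linarith) (by linarith) (by
        rw [mass_compl hF fun i => by fin_cases i <;> simp <;> linarith, Fin.prod_univ_three, e]
        simp only [Matrix.cons_val_zero, Matrix.cons_val_one, Matrix.cons_val, h,
          add_sub_cancel_left]
        linarith)
    refine le_trans (le_of_eq ?_) h3
    have h4 := J_scale (k := 1 / 2) (by norm_num) a b (v := 4 * w) (by linarith)
    rw [show (1 / 2 : ℝ) ^ 3 * (4 * w) = w / 2 by ring, show 1 / 2 * a = a / 2 by ring,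
      show 1 / 2 * b = b / 2 by ring] at h4
    rw [h4]
    congr 1
    ring
  have hJ : 0 ≤ J a b (4 * w) / 8 := by
    have := J_nonneg ha.le (ha.le.trans hab) (v := 4 * w) (by linarith)
    linarith
  have h5 := rp_window (pr _ ⁻¹' E) ![0, y, z0] ![0, y + b / 2, z1] 0 s (s + a / 2) (s + a)
    (by linarith) (by linarith)
  simp only [up0] at h5
  refine ⟨s, le_trans ?_ ((add_le_add (key _ _ (by ring) e1) (key _ _ (by ring) e2)).trans h5)⟩
  rw [← ENNReal.ofReal_add hJ hJ]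
  exact le_of_eq (congrArg _ (by ring))

/-- Four boxes. -/
theorem lowY (ha : 0 < a) (hab : a ≤ b) (hE : MeasurableSet E) {z0 z1 w : ℝ}
    (hz : b / 2 ≤ z1 - z0) (hw : 0 ≤ w)
    (h1 : w ≤ mass (pr _ ⁻¹' E) ![0, 0, z0] ![0 + a, 0 + b, z1])
    (h2 : w ≤ a * b * (z1 - z0) - mass (pr _ ⁻¹' E) ![0, 0, z0] ![0 + a, 0 + b, z1]) :
    ∃ U, IsOpen U ∧ (∀ x ∈ U, z0 < x 2 ∧ x 2 < z1) ∧
      (∀ x ∈ U, ∀ y ∈ U, x 2 = y 2 → pr (L a b c p q r) x = pr _ y → x = y) ∧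
      ENNReal.ofReal (J a b (2 * w) / 2) ≤ rp (pr _ ⁻¹' E) U := by
  have hb := ha.trans_le hab
  obtain ⟨t, e1, e2⟩ := (mass1 (measurable_pr hE) 0 (0 + a) z0 z1).bisect hb (per1 ha hE _ _) 0
  rw [show t + b = t + b / 2 + b / 2 by ring] at e2
  obtain ⟨s, hs⟩ := lowX ha hab hE t hz (w := w / 2) (by linarith) (by linarith) (by linarith)
  obtain ⟨s', hs'⟩ := lowX ha hab hE (t + b / 2) hz (w := w / 2) (by linarith) (by linarith)
    (by linarith)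
  have hJ : 0 ≤ J a b (4 * (w / 2)) / 4 := by
    have := J_nonneg ha.le hb.le (v := 4 * (w / 2)) (by linarith)
    linarith
  refine ⟨_, (isOpen_bx _ _).union (isOpen_bx _ _), ?_, ?_,
    le_trans ?_ ((add_le_add hs hs').trans (rp_add _ (disjoint_left.2 fun x hx hx' =>
      lt_asymm (mem_bx3.1 hx).2.1.2 (mem_bx3.1 hx').2.1.1)))⟩
  · rintro x (hx | hx) <;> exact (mem_bx3.1 hx).2.2
  · rintro x (hx | hx) y (hy | hy) h2 h <;> obtain ⟨⟨x0, x0'⟩, ⟨x1, x1'⟩, -⟩ := mem_bx3.1 hx <;>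
      obtain ⟨⟨y0, y0'⟩, ⟨y1, y1'⟩, -⟩ := mem_bx3.1 hy <;>
      have h3 := pr_eq1 h h2 (abs_sub_lt_iff.2 ⟨by linarith, by linarith⟩)
    · exact pr_eq0 h h2 h3 (abs_sub_lt_iff.2 ⟨by linarith, by linarith⟩)
    · linarith
    · linarith
    · exact pr_eq0 h h2 h3 (abs_sub_lt_iff.2 ⟨by linarith, by linarith⟩)
  · rw [← ENNReal.ofReal_add hJ hJ, show 4 * (w / 2) = 2 * w by ring]
    exact le_of_eq (congrArg _ (by ring))

/-- Eight boxes. -/
theorem lowZ (ha : 0 < a) (hab : a ≤ b) (hc : c = 0 ∨ b ≤ c) (hE : MeasurableSet E)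
    {z0 z1 z2 w : ℝ} (hz : b / 2 ≤ z1 - z0) (hz' : b / 2 ≤ z2 - z1) (hzc : c = 0 ∨ z2 - z0 ≤ c)
    (hw : 0 ≤ w) (h1 : w ≤ mass (pr _ ⁻¹' E) ![0, 0, z0] ![0 + a, 0 + b, z1])
    (h2 : w ≤ a * b * (z1 - z0) - mass (pr _ ⁻¹' E) ![0, 0, z0] ![0 + a, 0 + b, z1])
    (h3 : w ≤ mass (pr _ ⁻¹' E) ![0, 0, z1] ![0 + a, 0 + b, z2])
    (h4 : w ≤ a * b * (z2 - z1) - mass (pr _ ⁻¹' E) ![0, 0, z1] ![0 + a, 0 + b, z2]) :
    ENNReal.ofReal (J a b (2 * w)) ≤ perimeter E := by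
  have hb := ha.trans_le hab
  obtain ⟨U, hU, hU1, hU2, hU3⟩ := lowY ha hab hE hz hw h1 h2
  obtain ⟨W, hW, hW1, hW2, hW3⟩ := lowY ha hab hE hz' hw h3 h4
  have hJ : 0 ≤ J a b (2 * w) / 2 := by
    have := J_nonneg ha.le hb.le (v := 2 * w) (by linarith)
    linarith
  refine le_trans ?_ (((add_le_add hU3 hW3).trans (rp_add _ (disjoint_left.2 fun x hx hx' =>
    lt_asymm (hU1 x hx).2 (hW1 x hx').1))).trans
      (rp_le_perimeter (sys_L ha hab hc) hE (hU.union hW) ?_))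
  · rw [← ENNReal.ofReal_add hJ hJ, add_halves]
  · have h5 : ∀ x ∈ U ∪ W, z0 < x 2 ∧ x 2 < z2 := by
      rintro x (hx | hx)
      · exact ⟨(hU1 x hx).1, by linarith [(hU1 x hx).2]⟩
      · exact ⟨by linarith [(hW1 x hx).1], (hW1 x hx).2⟩
    intro x hx y hy h
    have h6 := pr_eq2 h (hzc.imp_right fun h7 => abs_sub_lt_iff.2
      ⟨by linarith [(h5 x hx).2, (h5 y hy).1], by linarith [(h5 x hx).1, (h5 y hy).2]⟩)
    rcases hx with hx | hx <;> rcases hy with hy | hy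
    · exact hU2 x hx y hy h6 h
    · linarith [(hU1 x hx).2, (hW1 y hy).1]
    · linarith [(hU1 y hy).2, (hW1 x hx).1]
    · exact hW2 x hx y hy h6 h

theorem torus_mass (ha : 0 < a) (hab : a ≤ b) (hbc : b ≤ c) (hE : MeasurableSet E) :
    vol _ E = volume (pr _ ⁻¹' E ∩ bx ![0, 0, 0] ![0 + a, 0 + b, 0 + c]) := by
  rw [cell_vol ha hab (Or.inr hbc) hE]
  congr 2
  ext x
  simp [mem_bx3, (ha.trans_le (hab.trans hbc)).ne']

theorem low_torus (ha : 0 < a) (hab : a ≤ b) (hbc : b ≤ c) (hE : MeasurableSet E) {V : ℝ}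
    (h0 : 0 < V) (h1 : V < a * b * c) (hV : vol _ E = ENNReal.ofReal V) :
    ENNReal.ofReal (J a b (min V (a * b * c - V))) ≤ perimeter E := by
  have hb := ha.trans_le hab
  have e0 : mass (pr _ ⁻¹' E) ![0, 0, 0] ![0 + a, 0 + b, 0 + c] = V := by
    rw [mass, Measure.real, ← torus_mass ha hab hbc hE, hV, ENNReal.toReal_ofReal h0.le]
  obtain ⟨s, e1, e2⟩ := (mass2 (measurable_pr hE) 0 (0 + a) 0 (0 + b)).bisect (hb.trans_le hbc)
    (per2 ha hb hE) 0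
  rw [e0] at e1 e2
  have m1 := min_le_left V (a * b * c - V)
  have m2 := min_le_right V (a * b * c - V)
  have m3 : 0 ≤ min V (a * b * c - V) := le_min h0.le (by linarith)
  have := lowZ ha hab (Or.inr hbc) hE (z0 := s) (z1 := s + c / 2) (z2 := s + c)
    (w := min V (a * b * c - V) / 2) (by linarith) (by linarith) (Or.inr (by linarith))
    (by linarith) (by linarith) (by linarith) (by linarith) (by linarith)
  rwa [mul_div_cancel₀ _ two_ne_zero] at this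

end

theorem low_cyl (ha : 0 < a) (hab : a ≤ b) {E : Set (R3 ⧸ L a b 0 p q r)} (hE : MeasurableSet E)
    {V : ℝ} (h0 : 0 < V) (hV : vol _ E = ENNReal.ofReal V) :
    ENNReal.ofReal (J a b V) ≤ perimeter E := by
  have hb := ha.trans_le hab
  have hF := measurable_pr hE
  have hM := mass2 hF 0 (0 + a) 0 (0 + b)
  have e0 := cell_vol ha hab (Or.inl rfl) hE
  have hU : (pr _ ⁻¹' E ∩ {x : V3 | (0 < x 0 ∧ x 0 < a) ∧ (0 < x 1 ∧ x 1 < b) ∧
      ((0 : ℝ) = 0 ∨ 0 < x 2 ∧ x 2 < 0)}) =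
      ⋃ n : ℕ, pr _ ⁻¹' E ∩ bx ![0, 0, -n] ![0 + a, 0 + b, n] := by
    rw [← inter_iUnion]
    congr 1
    ext x
    obtain ⟨n, hn⟩ := exists_nat_gt |x 2|
    simp only [mem_ofPred_eq, mem_iUnion, mem_bx3, true_or, and_true, zero_add]
    exact ⟨fun h => ⟨n, h.1, h.2, abs_lt.1 hn⟩, fun ⟨_, h⟩ => ⟨h.1, h.2.1⟩⟩
  have hle : ∀ s t, mass (pr _ ⁻¹' E) ![0, 0, s] ![0 + a, 0 + b, t] ≤ V := fun s t => by
    refine ENNReal.toReal_le_of_le_ofReal h0.le ?_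
    rw [← hV, e0]
    refine measure_mono (inter_subset_inter_right _ fun x hx => ?_)
    simp only [mem_bx3, zero_add] at hx
    exact ⟨hx.1, hx.2.1, Or.inl rfl⟩
  have hlim : Tendsto (fun n : ℕ => mass (pr _ ⁻¹' E) ![0, 0, -n] ![0 + a, 0 + b, n]) atTop
      (𝓝 V) := by
    have h1 := tendsto_measure_iUnion_atTop (μ := volume)
      (s := fun n : ℕ => pr _ ⁻¹' E ∩ bx ![0, 0, -n] ![0 + a, 0 + b, n]) fun n k h =>
        inter_subset_inter_right _ fun x hx => by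
          have h2 : (n : ℝ) ≤ k := Nat.cast_le.2 h
          rw [mem_bx3] at hx ⊢
          exact ⟨hx.1, hx.2.1, by linarith [hx.2.2.1], by linarith [hx.2.2.2]⟩
    rw [← hU, ← e0, hV] at h1
    have h2 := (ENNReal.tendsto_toReal ENNReal.ofReal_ne_top).comp h1
    rwa [ENNReal.toReal_ofReal h0.le] at h2
  have hJ : Continuous (J a b) := by
    unfold J
    have : Continuous fun v : ℝ => v ^ (2 / 3 : ℝ) := Real.continuous_rpow_const (by norm_num)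
    fun_prop
  refine le_of_tendsto' ((ENNReal.continuous_ofReal.comp hJ).continuousAt.tendsto.comp hlim)
    fun n => ?_
  have hn : (0 : ℝ) ≤ n := Nat.cast_nonneg n
  set v := mass (pr _ ⁻¹' E) ![0, 0, -n] ![0 + a, 0 + b, n] with hv
  have hv0 : 0 ≤ v := mass_nonneg _ _ _
  have hvV : v ≤ V := hle _ _
  obtain ⟨z, z1, z2, e1⟩ := hM.ivt (p := -n) (y := -n) (q := n) (w := v / 2) le_rfl (by linarith)
    (by rw [hM.self]; linarith) (by linarith)
  have e2 := hM.add (-n) z n z1 z2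
  set H := 2 * n + b + 2 * V / (a * b) with hH
  have h1 : 0 < 2 * V / (a * b) := by positivity
  have h2 : 2 * V ≤ a * b * H := by
    have : a * b * (2 * V / (a * b)) = 2 * V := by field_simp
    have h3 : 0 ≤ a * b * (2 * n + b) := by positivity
    rw [hH, mul_add]
    linarith
  have m1 := hM.mono (p := z - H) (p' := -n) (q' := z) (q := z) (by linarith) z1 le_rfl
  have m2 := hM.mono (p := z) (p' := z) (q' := n) (q := z + H) le_rfl z2 (by linarith)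
  have := lowZ ha hab (Or.inl rfl) hE (z0 := z - H) (z1 := z) (z2 := z + H) (w := v / 2)
    (by linarith) (by linarith) (Or.inl rfl) (by linarith) (by linarith)
    (by rw [sub_sub_cancel]; linarith [hle (z - H) z]) (by linarith)
    (by rw [add_sub_cancel_left]; linarith [hle z (z + H)])
  rwa [mul_div_cancel₀ _ two_ne_zero] at this

end Vale.Agent.N232
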