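import Vale.Agent.N232.Low
import Vale.Agent.N232.Defs
import Vale.Agent.P232T93.Br

/-! The profiles. -/

open MeasureTheory Set Filter Topology

namespace Vale.Agent.N232

open Vale.Agent.P232

section

variable {G : AddSubgroup R3} [IsClosed (G : Set R3)]

theorem profile_of {V x : ℝ}
    (h1 : ∀ E : Set (R3 ⧸ G), MeasurableSet E → vol G E = ENNReal.ofReal V →
      ENNReal.ofReal x ≤ perimeter E)
    (h2 : ∃ E : Set (R3 ⧸ G), MeasurableSet E ∧ vol G E = ENNReal.ofReal V ∧
      perimeter E ≤ ENNReal.ofReal x) :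
    profile G V = ENNReal.ofReal x ∧ ∃ E : Set (R3 ⧸ G), IsMinimizer V E := by
  obtain ⟨E, hE, hV, hP⟩ := h2
  have h : profile G V = ENNReal.ofReal x := by
    refine le_antisymm (iInf₂_le_of_le E hE.nullMeasurableSet
      (iInf₂_le_of_le (hP.trans_lt ENNReal.ofReal_lt_top) hV hP))
      (le_iInf₂ fun F hF => le_iInf₂ fun _ hV => ?_)
    rw [← perimeter_congr hF.toMeasurable_ae_eq]
    exact h1 _ (measurableSet_toMeasurable _ _) ((measure_toMeasurable F).trans hV)
  exact ⟨h, E, hE.nullMeasurableSet, hV, h ▸ le_antisymm hP (h1 E hE hV)⟩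

theorem model_of (hG : Sys G) {S : Set V3} (hS : MeasurableSet S) (hi : InjOn (pr G) S) {V x : ℝ}
    (hV : volume S = ENNReal.ofReal V)
    (h : ∀ X : R3 ⧸ G → R3, IsField X → ∫ y in S, divergence (lift X) y ≤ x) :
    ∃ E : Set (R3 ⧸ G), MeasurableSet E ∧ vol G E = ENNReal.ofReal V ∧
      perimeter E ≤ ENNReal.ofReal x :=
  ⟨pr G '' S, measurableSet_image hS hi, (vol_image hG hS hi).trans hV, iSup₂_le fun X hX =>
    ENNReal.ofReal_le_ofReal ((hX.integral_image hG hS hi).le.trans (h X hX))⟩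

end

variable {a b c p q r : ℝ}

theorem lift_add (X : R3 ⧸ L a b c p q r → R3) (i : Fin 3) (x : V3) :
    lift X (x + sh p q r (Pi.single i (![a, b, c] i))) = lift X x := by
  rw [lift, pr_add, lift]

theorem abs_sub_lt_of_qd {n : ℕ} {R : ℝ} (hR : 0 < R) {x y : Fin n → ℝ} (hx : qd x < R ^ 2)
    (hy : qd y < R ^ 2) (i : Fin n) : |x i - y i| < 2 * R := by
  have h : ∀ x : Fin n → ℝ, qd x < R ^ 2 → |x i - 1 / 2| < R := fun x hx =>
    abs_lt_of_sq_lt_sq ((Finset.single_le_sum (f := fun i => (x i - 1 / 2) ^ 2)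
      (fun j _ => sq_nonneg _) (Finset.mem_univ i)).trans_lt hx) hR.le
  have h1 := abs_lt.1 (h x hx)
  have h2 := abs_lt.1 (h y hy)
  exact abs_lt.2 ⟨by linarith [h1.1, h2.2], by linarith [h1.2, h2.1]⟩

theorem injOn_slab {w : ℝ} (hw : c = 0 ∨ w ≤ c) :
    InjOn (pr (L a b c p q r)) (sh p q r '' bx 0 ![a, b, w]) := by
  rintro _ ⟨x, hx, rfl⟩ _ ⟨y, hy, rfl⟩ h
  obtain ⟨h0, h1, h2⟩ := pr_sh.1 h
  rw [mem_bx] at hx hy
  have k : ∀ i, |x i - y i| < ![a, b, w] i := fun i => by
    have h3 := hx i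
    have h4 := hy i
    simp only [Pi.zero_apply] at h3 h4
    exact abs_sub_lt_iff.2 ⟨by linarith [h3.2, h4.1], by linarith [h3.1, h4.2]⟩
  congr 1
  ext i
  fin_cases i
  exacts [sub_eq_zero.1 (zm_eq_zero h0 (Or.inr (k 0))), sub_eq_zero.1 (zm_eq_zero h1 (Or.inr (k 1))),
    sub_eq_zero.1 (zm_eq_zero h2 (hw.imp_right fun h => (k 2).trans_le h))]

theorem volume_slab (ha : 0 < a) (hb : 0 < b) (w : ℝ) :
    volume (sh p q r '' bx 0 ![a, b, w]) = ENNReal.ofReal (a * b * w) := by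
  rw [volume_sh p q r (isOpen_bx _ _).measurableSet, bx, Real.volume_pi_Ioo, Fin.prod_univ_three,
    ENNReal.ofReal_mul (by positivity), ENNReal.ofReal_mul ha.le]
  simp

theorem exists_model (ha : 0 < a) (hab : a ≤ b) (hc : c = 0 ∨ b ≤ c) {v : ℝ} (hv : 0 < v)
    (hvc : c = 0 ∨ v ≤ a * b * c) : ∃ E : Set (R3 ⧸ L a b c p q r), MeasurableSet E ∧
      vol _ E = ENNReal.ofReal v ∧ perimeter E ≤ ENNReal.ofReal (J a b v) := by
  have hb := ha.trans_le hab
  have hpi := Real.pi_gt_three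
  have hpi4 := Real.pi_le_four
  have hG := sys_L (p := p) (q := q) (r := r) ha hab hc
  have slab : ∃ E : Set (R3 ⧸ L a b c p q r), MeasurableSet E ∧
      vol _ E = ENNReal.ofReal v ∧ perimeter E ≤ ENNReal.ofReal (2 * a * b) := by
    have hw : 0 < v / (a * b) := by positivity
    refine model_of hG (measurableSet_sh p q r (isOpen_bx _ _).measurableSet)
      (injOn_slab (w := v / (a * b)) (hvc.imp_right fun h => ?_)) ?_ fun X hX =>
      slab_le ha hb hw hX.contDiff_lift hX.bound_lift (lift_add X 0) (lift_add X 1)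
    · rw [div_le_iff₀ (by positivity)]
      linarith
    · rw [volume_slab ha hb, mul_div_cancel₀ _ (by positivity)]
  have tube : ∃ E : Set (R3 ⧸ L a b c p q r), MeasurableSet E ∧
      vol _ E = ENNReal.ofReal v ∧
        perimeter E ≤ ENNReal.ofReal (min (2 * √(Real.pi * a * v)) (2 * a * b)) := by
    rcases le_total (2 * √(Real.pi * a * v)) (2 * a * b) with h | h
    swap
    · rwa [min_eq_right h]
    rw [min_eq_left h]
    set R := √(v / (Real.pi * a)) with hR
    have hR0 : 0 < R := Real.sqrt_pos.2 (by positivity)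
    have hR2 : R ^ 2 = v / (Real.pi * a) := Real.sq_sqrt (by positivity)
    have e : √(Real.pi * a * v) = Real.pi * a * R := by
      rw [Real.sqrt_eq_iff_mul_self_eq (by positivity) (by positivity), ← sq, mul_pow, hR2]
      field_simp
    have h1 : 2 * R ≤ b := by
      rw [e] at h
      have h2 : a * (Real.pi * R) ≤ a * b := by linarith
      nlinarith [le_of_mul_le_mul_left h2 ha]
    have e0 : sh p q r (Pi.single 0 (![a, b, c] 0)) = Pi.single 0 a := by
      rw [sh0]
      ext i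
      fin_cases i <;> simp
    refine model_of hG (measurableSet_cyl a (measurableSet_qd_lt R)) (fun x hx y hy h => ?_) ?_
      fun X hX => (tube_le ha hR0 hX.contDiff_lift hX.bound_lift
        (e0 ▸ lift_add X 0)).trans (le_of_eq (by rw [e]; ring))
    · rw [mem_cyl] at hx hy
      exact pr_eq h (abs_sub_lt_iff.2 ⟨by linarith [hx.1.2, hy.1.1], by linarith [hx.1.1, hy.1.2]⟩)
        ((abs_sub_lt_of_qd hR0 hx.2 hy.2 0).trans_le h1)
        (hc.imp_right fun h2 => (abs_sub_lt_of_qd hR0 hx.2 hy.2 1).trans_le (h1.trans h2))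
    · rw [volume_cyl a (measurableSet_qd_lt R), ← ENNReal.ofReal_toReal
        (volume_qd_lt_ne_top (n := 1) hR0), volume_qd_lt (n := 1) hR0, omega_two,
        ← ENNReal.ofReal_mul ha.le, hR2]
      congr 1
      field_simp
  rcases le_total ((36 * Real.pi) ^ (1 / 3 : ℝ) * v ^ (2 / 3 : ℝ)) (2 * √(Real.pi * a * v)) with h | h
  swap
  · rwa [J, min_eq_right h]
  rcases le_total ((36 * Real.pi) ^ (1 / 3 : ℝ) * v ^ (2 / 3 : ℝ)) (2 * a * b) with h' | h'
  swap
  · rwa [J, min_eq_left h, min_eq_right h']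
  rw [J, min_eq_left h, min_eq_left h']
  set R : ℝ := (v / (4 / 3 * Real.pi)) ^ ((3 : ℕ)⁻¹ : ℝ) with hR
  have hR0 : 0 < R := by positivity
  have hR3 : 4 / 3 * Real.pi * R ^ 3 = v := by
    rw [hR, Real.rpow_inv_natCast_pow (by positivity) three_ne_zero,
      mul_div_cancel₀ _ (by positivity)]
  have e : (36 * Real.pi) ^ (1 / 3 : ℝ) * v ^ (2 / 3 : ℝ) = 4 * Real.pi * R ^ 2 := by
    refine (pow_left_inj₀ (by positivity) (by positivity) three_ne_zero).1 ?_
    rw [ball_cube hv.le, ← hR3]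
    ring
  have h1 : 2 * R ≤ a := by
    rw [e] at h
    have h2 := pow_le_pow_left₀ (by positivity) h 2
    rw [mul_pow 2, Real.sq_sqrt (by positivity), ← hR3] at h2
    have h3 : Real.pi ^ 2 * R ^ 3 * (3 * R) ≤ Real.pi ^ 2 * R ^ 3 * a := by nlinarith
    linarith [le_of_mul_le_mul_left h3 (by positivity)]
  refine model_of hG (measurableSet_qd_lt R) (fun x hx y hy h => ?_) ?_ fun X hX =>
    (ball_le (n := 2) hR0 hX.contDiff_lift hX.bound_lift).trans (le_of_eq ?_)
  · exact pr_eq h ((abs_sub_lt_of_qd hR0 hx hy 0).trans_le h1)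
      ((abs_sub_lt_of_qd hR0 hx hy 1).trans_le (h1.trans hab))
      (hc.imp_right fun h2 => (abs_sub_lt_of_qd hR0 hx hy 2).trans_le (h1.trans (hab.trans h2)))
  · rw [← ENNReal.ofReal_toReal (volume_qd_lt_ne_top (n := 2) hR0), volume_qd_lt (n := 2) hR0,
      omega_three, hR3]
  · rw [omega_three, e]
    push_cast
    ring

theorem vol_univ (ha : 0 < a) (hab : a ≤ b) (hbc : b ≤ c) :
    vol (L a b c p q r) univ = ENNReal.ofReal (a * b * c) := by
  have hb := ha.trans_le hab
  rw [torus_mass ha hab hbc MeasurableSet.univ, preimage_univ, univ_inter, bx, Real.volume_pi_Ioo,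
    Fin.prod_univ_three, ENNReal.ofReal_mul (by positivity), ENNReal.ofReal_mul ha.le]
  simp

theorem perimeter_compl_le (ha : 0 < a) (hab : a ≤ b) (hbc : b ≤ c)
    {E : Set (R3 ⧸ L a b c p q r)} (hE : MeasurableSet E) : perimeter Eᶜ ≤ perimeter E := by
  have hb := ha.trans_le hab
  have hc := hb.trans_le hbc
  have hG := sys_L (p := p) (q := q) (r := r) ha hab (Or.inr hbc)
  have hS := measurableSet_sh p q r (isOpen_bx 0 ![a, b, c]).measurableSet
  have hi := injOn_slab (a := a) (b := b) (p := p) (q := q) (r := r) (Or.inr (le_refl c))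
  have : IsFiniteMeasure (vol (L a b c p q r)) :=
    ⟨(vol_univ ha hab hbc).trans_lt ENNReal.ofReal_lt_top⟩
  have hae : pr (L a b c p q r) '' (sh p q r '' bx 0 ![a, b, c]) =ᵐ[vol _] univ := by
    rw [ae_eq_univ, measure_compl (measurableSet_image hS hi) (measure_ne_top _ _),
      vol_image hG hS hi, volume_slab ha hb, vol_univ ha hab hbc, tsub_self]
  refine iSup₂_le fun X hX => ?_
  have hN : IsField (fun z => -X z) := ⟨hX.1.neg, hX.2.1.neg, fun z => by simpa using hX.2.2 z⟩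
  have hd : ∀ z, div (fun z => -X z) z = -div X z := fun z => by
    obtain ⟨x, rfl⟩ := pr_surjective z
    rw [hN.div_pr, hX.div_pr, ← divergence_neg]
    rfl
  have hint : Integrable (div X) (vol _) := by
    refine hX.continuous_div.integrable_of_hasCompactSupport (hX.2.1.mono' fun z hz => ?_)
    by_contra h
    obtain ⟨x, rfl⟩ := pr_surjective z
    have h1 : lift X =ᶠ[𝓝 x] fun _ => 0 := by
      filter_upwards [continuous_pr.continuousAt.eventually (notMem_tsupport_iff_eventuallyEq.1 h)]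
        with z hz
      simp only [lift, hz]
      rfl
    exact hz (by rw [hX.div_pr]; simp [divergence, h1.fderiv_eq])
  have h0 : ∫ z, div X z ∂vol _ = 0 := by
    rw [← setIntegral_univ, ← setIntegral_congr_set hae, hX.integral_image hG hS hi,
      slab_flux ha hb hc hX.contDiff_lift (lift_add X 0) (lift_add X 1), sub_eq_zero]
    exact congrArg _ (funext fun y => congrFun (lift_add X 2 _) 2)
  refine le_trans (le_of_eq ?_) (le_iSup₂ (f := fun (X : R3 ⧸ L a b c p q r → R3) (_ : IsField X) =>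
    ENNReal.ofReal (∫ p in E, div X p ∂vol _)) _ hN)
  have h1 := integral_add_compl hE hint
  simp only [hd, integral_neg]
  congr 1
  linarith

theorem profile_torus (ha : 0 < a) (hab : a ≤ b) (hbc : b ≤ c) {V : ℝ} (h0 : 0 < V)
    (h1 : V < a * b * c) :
    profile (L a b c p q r) V = ENNReal.ofReal (J a b (min V (a * b * c - V))) ∧
      ∃ E : Set (R3 ⧸ L a b c p q r), IsMinimizer V E := by
  refine profile_of (fun E hE hV => low_torus ha hab hbc hE h0 h1 hV) ?_
  rcases le_total V (a * b * c - V) with h | h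
  · rw [min_eq_left h]
    exact exists_model ha hab (Or.inr hbc) h0 (Or.inr h1.le)
  · rw [min_eq_right h]
    obtain ⟨E, hE, hV, hP⟩ := exists_model (p := p) (q := q) (r := r) ha hab (Or.inr hbc)
      (sub_pos.2 h1) (Or.inr (by linarith))
    refine ⟨Eᶜ, hE.compl, ?_, (perimeter_compl_le ha hab hbc hE).trans hP⟩
    rw [measure_compl hE (hV.trans_ne ENNReal.ofReal_ne_top), vol_univ ha hab hbc, hV,
      ← ENNReal.ofReal_sub _ (sub_pos.2 h1).le, sub_sub_cancel]

theorem profile_cyl (ha : 0 < a) (hab : a ≤ b) {V : ℝ} (h0 : 0 < V) :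
    profile (L a b 0 p q r) V = ENNReal.ofReal (J a b V) ∧
      ∃ E : Set (R3 ⧸ L a b 0 p q r), IsMinimizer V E :=
  profile_of (fun _ hE hV => low_cyl ha hab hE h0 hV)
    (exists_model ha hab (Or.inl rfl) h0 (Or.inl rfl))

theorem cubic_profile {V : ℝ} (h0 : 0 < V) (h1 : V < 1) :
    profile (L 1 1 1 0 0 0) V = ENNReal.ofReal (J 1 1 (min V (1 - V))) ∧
      ∃ E : Set (R3 ⧸ L 1 1 1 0 0 0), IsMinimizer V E := by
  simpa only [mul_one] using profile_torus (p := 0) (q := 0) (r := 0) one_pos le_rfl le_rfl h0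
    (by simpa using h1)

theorem L_one : L 1 1 1 0 0 0 = P232T.Z3 := by
  ext x
  rw [mem_L]
  simp only [zero_mul, sub_zero, AddSubgroup.mem_zmultiples_iff, zsmul_one]
  exact ⟨fun h i => by fin_cases i; exacts [h.1, h.2.1, h.2.2], fun h => ⟨h 0, h 1, h 2⟩⟩

theorem cubic (G : AddSubgroup R3) [IsClosed (G : Set R3)] (hG : G = P232T.Z3) {V : ℝ}
    (h0 : 0 < V) (h1 : V < 1) (E : Set (R3 ⧸ G)) : IsMinimizer V E ↔
      (V ≤ 1 / 2 ∧ ∃ B, Model V B ∧ E =ᵐ[vol G] B) ∨
      (1 / 2 ≤ V ∧ ∃ B, Model (1 - V) B ∧ E =ᵐ[vol G] (Bᶜ : Set (R3 ⧸ G))) := by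
  subst hG
  have e1 : ∀ E, perimeter E = P232T.perimeter E := fun E =>
    le_antisymm (iSup₂_le fun X hX => le_iSup₂_of_le X ⟨hX.1, hX.2.2⟩ le_rfl)
      (iSup₂_le fun X hX => le_iSup₂_of_le X
        ⟨hX.1, HasCompactSupport.of_compactSpace X, hX.2⟩ le_rfl)
  have e2 : ∀ E, vol P232T.Z3 E = ENNReal.ofReal V ↔ P232T.vol.real E = V := fun E =>
    ⟨fun h => (congrArg ENNReal.toReal h).trans (ENNReal.toReal_ofReal h0.le), fun h => by
      rw [← h]
      exact (ENNReal.ofReal_toReal (ne_top_of_le_ne_top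
        (P232T.vol_univ.trans_ne ENNReal.one_ne_top) (measure_mono (subset_univ E)))).symm⟩
  have e3 : profile P232T.Z3 V = P232T.profile V := by
    simp only [profile, P232T.profile, e1, e2]
    rfl
  refine Iff.trans ?_ (P232T.minimizer_iff h0 h1 E)
  rw [IsMinimizer, P232T.IsMinimizer, e1, e2, e3]
  rfl

theorem div_eq {X : R3 ⧸ L a b c p q r → R3} (h : IsField X) (z : R3 ⧸ L a b c p q r) :
    S.div X z = div X z := by
  obtain ⟨x, rfl⟩ := pr_surjective z
  rw [h.div_pr]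
  refine Finset.sum_congr rfl fun i _ => ?_
  have h1 : HasDerivAt (fun t : ℝ => x + Pi.single i t) (Pi.single i (1 : ℝ) : V3) 0 :=
    (((hasDerivAt_id' (0 : ℝ)).smul_const (Pi.single i (1 : ℝ) : V3)).const_add x).congr_deriv
      (one_smul _ _) |>.congr_of_eventuallyEq (Eventually.of_forall fun t => by
        simp only [← Pi.single_smul', smul_eq_mul, mul_one])
  have h2 := (h.contDiff_lift.differentiable one_ne_zero x).hasFDerivAt.comp_hasDerivAt_of_eq 0 h1
    (by simp)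
  exact (hasDerivAt_pi.1 h2 i).deriv

theorem perimeter_eq (E : Set (S.T a b c p q r)) :
    S.perimeter E = perimeter (G := L a b c p q r) E :=
  iSup_congr fun _ => iSup_congr fun h => congrArg _
    (integral_congr_ae (Eventually.of_forall (div_eq h)))

theorem profile_eq (V : ℝ) : S.profile a b c p q r V = profile (L a b c p q r) V := by
  simp only [S.profile, profile, perimeter_eq]
  rfl

theorem isMinimizer_iff (V : ℝ) (E : Set (S.T a b c p q r)) :
    S.IsMinimizer V E ↔ IsMinimizer (G := L a b c p q r) V E := by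
  rw [S.IsMinimizer, perimeter_eq, profile_eq]
  rfl

theorem main :
    (∀ V : ℝ, 0 < V → V < 1 →
      S.profile 1 1 1 0 0 0 V = ENNReal.ofReal (S.J 1 1 (min V (1 - V))) ∧
      (∃ E : Set (S.T 1 1 1 0 0 0), S.IsMinimizer V E) ∧
      ∀ E : Set (S.T 1 1 1 0 0 0), S.IsMinimizer V E ↔
        (V ≤ 1 / 2 ∧ ∃ B, S.Model V B ∧ E =ᵐ[S.vol] B) ∨
        (1 / 2 ≤ V ∧ ∃ B, S.Model (1 - V) B ∧ E =ᵐ[S.vol] ((B)ᶜ : Set _))) ∧
    (∀ a b c p q r : ℝ, 0 < a → a ≤ b → b ≤ c →
      S.vol (Set.univ : Set (S.T a b c p q r)) = ENNReal.ofReal (a * b * c) ∧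
      ∀ V : ℝ, 0 < V → V < a * b * c →
        S.profile a b c p q r V = ENNReal.ofReal (S.J a b (min V (a * b * c - V))) ∧
        ∃ E : Set (S.T a b c p q r), S.IsMinimizer V E) ∧
    (∀ a b p : ℝ, 0 < a → a ≤ b → ∀ V : ℝ, 0 < V →
      S.profile a b 0 p 0 0 V = ENNReal.ofReal (S.J a b V) ∧
      ∃ E : Set (S.T a b 0 p 0 0), S.IsMinimizer V E) := by
  simp only [profile_eq, isMinimizer_iff]
  exact ⟨fun _ h0 h1 => ⟨(cubic_profile h0 h1).1, (cubic_profile h0 h1).2, cubic _ L_one h0 h1⟩,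
    fun _ _ _ _ _ _ ha hab hbc =>
      ⟨vol_univ ha hab hbc, fun _ h0 h1 => profile_torus ha hab hbc h0 h1⟩,
    fun _ _ _ ha hab _ h0 => profile_cyl ha hab h0⟩

end Vale.Agent.N232
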