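import Vale.Agent.N232.Box

/-! From the Euclidean space to its flat quotients. -/

open MeasureTheory Set Filter Topology

namespace Vale.Agent.N232

open Vale.Agent.P232

variable {G : AddSubgroup R3}

variable (G) in
/-- The projection, in coordinates. -/
def pr (x : V3) : R3 ⧸ G := (WithLp.toLp 2 x : R3)

theorem continuous_pr : Continuous (pr G) :=
  QuotientAddGroup.continuous_mk.comp (PiLp.continuous_toLp 2 _)

theorem pr_surjective : Function.Surjective (pr G) := fun p => by
  obtain ⟨x, rfl⟩ := QuotientAddGroup.mk_surjective p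
  exact ⟨x.ofLp, rfl⟩

theorem pr_eq_iff {x y : V3} : pr G x = pr G y ↔ (WithLp.toLp 2 (x - y) : R3) ∈ G :=
  QuotientAddGroup.eq_iff_sub_mem

/-- The nonzero elements of `G` are not short. -/
def Sys (G : AddSubgroup R3) : Prop := ∃ m > 0, ∀ g ∈ G, g ≠ 0 → m ≤ ‖g‖

variable [IsClosed (G : Set R3)]

theorem measurable_pr : Measurable (pr G) := continuous_pr.measurable

theorem vol_image_mk (hG : Sys G) {S : Set R3} (hS : MeasurableSet S)
    (hi : InjOn (fun x : R3 => (x : R3 ⧸ G)) S) :
    vol G ((fun x : R3 => (x : R3 ⧸ G)) '' S) = volume S := by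
  obtain ⟨m, hm, hG⟩ := hG
  have h1 : ∀ x : R3, ‖x‖ ≤ m / 2 → ‖(x : R3 ⧸ G)‖ = ‖x‖ := fun x hx => by
    refine le_antisymm QuotientAddGroup.norm_mk_le_norm
      (QuotientAddGroup.le_norm_iff.2 fun y hy => ?_)
    by_cases e : y = x
    · rw [e]
    · have h2 := hG _ (QuotientAddGroup.eq_iff_sub_mem.1 hy) (sub_ne_zero.2 e)
      linarith [norm_sub_le y x]
  have h2 : ∀ (c : R3) (S : Set R3), S ⊆ Metric.ball c (m / 4) →
      vol G ((fun x : R3 => (x : R3 ⧸ G)) '' S) = volume S := fun c S hS => by
    have h3 : Isometry fun x : S => (x.1 : R3 ⧸ G) := Isometry.of_dist_eq fun x y => by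
      have h4 := dist_triangle_right x.1 y.1 c
      have h5 : dist x.1 c < m / 4 := hS x.2
      have h6 : dist y.1 c < m / 4 := hS y.2
      rw [dist_eq_norm, ← QuotientAddGroup.mk_sub, h1 _ (by rw [← dist_eq_norm]; linarith),
        ← dist_eq_norm]
      rfl
    rw [image_eq_range, ← image_univ, vol, h3.euclideanHausdorffMeasure_image,
      ← isometry_subtype_coe.euclideanHausdorffMeasure_image, Subtype.coe_image_univ,
      EuclideanSpace.euclideanHausdorffMeasure_eq_volume]
  set B : ℕ → Set R3 := fun k => Metric.ball (TopologicalSpace.denseSeq R3 k) (m / 4) with hB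
  have h3 : S = ⋃ k, S ∩ disjointed B k := by
    rw [← inter_iUnion, iUnion_disjointed]
    refine (inter_eq_left.2 fun x _ => ?_).symm
    obtain ⟨k, hk⟩ := (TopologicalSpace.denseRange_denseSeq R3).exists_dist_lt x
      (by positivity : 0 < m / 4)
    exact mem_iUnion.2 ⟨k, hk⟩
  have h4 : ∀ k, MeasurableSet (S ∩ disjointed B k) := fun k =>
    hS.inter (MeasurableSet.disjointed (fun _ => measurableSet_ball) k)
  have h5 : Pairwise (Function.onFun Disjoint fun k => S ∩ disjointed B k) := fun i j h =>
    (disjoint_disjointed B h).mono inter_subset_right inter_subset_right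
  rw [h3, image_iUnion, measure_iUnion h5 h4, measure_iUnion (fun i j h =>
    (h5 h).image hi inter_subset_left inter_subset_left) fun k =>
      (h4 k).image_of_continuousOn_injOn QuotientAddGroup.continuous_mk.continuousOn
        (hi.mono inter_subset_left)]
  exact tsum_congr fun k => h2 _ _ (inter_subset_right.trans (disjointed_subset B k))

theorem vol_image (hG : Sys G) {S : Set V3} (hS : MeasurableSet S) (hi : InjOn (pr G) S) :
    vol G (pr G '' S) = volume S := by
  have h1 : MeasurableSet ((WithLp.toLp 2 : V3 → R3) '' S) :=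
    (MeasurableEquiv.toLp 2 V3).measurableEmbedding.measurableSet_image.2 hS
  have h2 := (PiLp.volume_preserving_toLp (Fin 3)).measure_preimage h1.nullMeasurableSet
  rw [preimage_image_eq _ (WithLp.toLp_injective 2)] at h2
  rw [h2, ← vol_image_mk hG h1, image_image]
  · rfl
  · rintro _ ⟨x, hx, rfl⟩ _ ⟨y, hy, rfl⟩ h
    rw [hi hx hy h]

theorem measurableSet_image {S : Set V3} (hS : MeasurableSet S) (hi : InjOn (pr G) S) :
    MeasurableSet (pr G '' S) :=
  hS.image_of_continuousOn_injOn continuous_pr.continuousOn hi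

theorem integral_image (hG : Sys G) {S : Set V3} (hS : MeasurableSet S) (hi : InjOn (pr G) S)
    {f : R3 ⧸ G → ℝ} (hf : Continuous f) :
    ∫ p in pr G '' S, f p ∂vol G = ∫ x in S, f (pr G x) := by
  have h : (vol G).restrict (pr G '' S) = (volume.restrict S).map (pr G) := by
    ext A hA
    rw [Measure.map_apply measurable_pr hA, Measure.restrict_apply hA,
      Measure.restrict_apply (measurable_pr hA), ← image_preimage_inter,
      vol_image hG ((measurable_pr hA).inter hS) (hi.mono inter_subset_right)]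
  rw [h, integral_map measurable_pr.aemeasurable hf.aestronglyMeasurable]

/-- The lift of a field. -/
def lift (X : R3 ⧸ G → R3) (x : V3) : V3 := (X (pr G x)).ofLp

omit [IsClosed (G : Set R3)] in
theorem IsField.contDiff_lift {X : R3 ⧸ G → R3} (h : IsField X) : ContDiff ℝ 1 (lift X) :=
  (EuclideanSpace.equiv (Fin 3) ℝ).contDiff.comp
    (h.1.comp (EuclideanSpace.equiv (Fin 3) ℝ).symm.contDiff)

omit [IsClosed (G : Set R3)] in
theorem IsField.bound_lift {X : R3 ⧸ G → R3} (h : IsField X) (x : V3) :
    ∑ i, lift X x i ^ 2 ≤ 1 := by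
  have h1 := pow_le_one₀ (n := 2) (norm_nonneg _) (h.2.2 (pr G x))
  rw [EuclideanSpace.real_norm_sq_eq] at h1
  exact h1

omit [IsClosed (G : Set R3)] in
theorem IsField.div_pr {X : R3 ⧸ G → R3} (h : IsField X) (x : V3) :
    div X (pr G x) = divergence (lift X) x := by
  have h1 := (h.1.differentiable one_ne_zero (WithLp.toLp 2 x)).hasFDerivAt
  have h2 : fderiv ℝ (fun v : R3 => X (pr G x + v)) 0 =
      fderiv ℝ (fun x : R3 => X x) (WithLp.toLp 2 x) := by
    have := fderiv_comp_add_left (𝕜 := ℝ) (f := fun x : R3 => X x) (x := 0) (WithLp.toLp 2 x)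
    rw [add_zero] at this
    exact this
  have h3 : HasFDerivAt (lift X) _ x :=
    (EuclideanSpace.equiv (Fin 3) ℝ).hasFDerivAt.comp x
      (h1.comp x (EuclideanSpace.equiv (Fin 3) ℝ).symm.hasFDerivAt)
  rw [div, h2, divergence, h3.fderiv,
    LinearMap.trace_eq_matrix_trace ℝ (EuclideanSpace.basisFun (Fin 3) ℝ).toBasis]
  refine Finset.sum_congr rfl fun i _ => ?_
  rw [Matrix.diag_apply, LinearMap.toMatrix_apply]
  simp

omit [IsClosed (G : Set R3)] in
theorem IsField.continuous_div {X : R3 ⧸ G → R3} (h : IsField X) : Continuous (div X) := by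
  rw [(QuotientAddGroup.isQuotientMap_mk G).continuous_iff]
  exact ((continuous_divergence h.contDiff_lift).comp (PiLp.continuous_ofLp 2 _)).congr
    fun x => (h.div_pr x.ofLp).symm

theorem IsField.integral_image (hG : Sys G) {X : R3 ⧸ G → R3} (h : IsField X) {S : Set V3}
    (hS : MeasurableSet S) (hi : InjOn (pr G) S) :
    ∫ p in pr G '' S, div X p ∂vol G = ∫ x in S, divergence (lift X) x := by
  rw [N232.integral_image hG hS hi h.continuous_div]
  simp only [h.div_pr]

/-- The perimeter is at least the perimeter of the lift relative to an embedded open set. -/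
theorem rp_le_perimeter (hG : Sys G) {E : Set (R3 ⧸ G)} (hE : MeasurableSet E) {U : Set V3}
    (hU : IsOpen U) (hi : InjOn (pr G) U) : rp (pr G ⁻¹' E) U ≤ perimeter E := by
  classical
  refine iSup₂_le fun Y hY => ?_
  set X : R3 ⧸ G → R3 := fun p =>
    if h : ∃ x ∈ U, pr G x = p then WithLp.toLp 2 (Y h.choose) else 0 with hX
  have k1 : ∀ x ∈ U, X (pr G x) = WithLp.toLp 2 (Y x) := fun x hx => by
    have h : ∃ y ∈ U, pr G y = pr G x := ⟨x, hx, rfl⟩
    simp only [hX, dif_pos h, hi h.choose_spec.1 hx h.choose_spec.2]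
  have k2 : ∀ p ∉ pr G '' tsupport Y, X p = 0 := fun p hp => by
    by_cases h : ∃ x ∈ U, pr G x = p
    · obtain ⟨x, hx, rfl⟩ := h
      rw [k1 x hx, image_eq_zero_of_notMem_tsupport fun h' => hp ⟨x, h', rfl⟩]
      rfl
    · simp only [hX, dif_neg h]
  have hK : IsCompact (pr G '' tsupport Y) := hY.compact.isCompact.image continuous_pr
  have k3 : ∀ p ∉ pr G '' tsupport Y, X =ᶠ[𝓝 p] fun _ => 0 := fun p hp =>
    mem_of_superset (hK.isClosed.isOpen_compl.mem_nhds hp) k2
  have hF : IsField X := by
    refine ⟨contDiff_iff_contDiffAt.2 fun x => ?_, HasCompactSupport.intro hK k2, fun p => ?_⟩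
    · by_cases hx : (x : R3 ⧸ G) ∈ pr G '' tsupport Y
      · obtain ⟨y, hy, e⟩ := hx
        have hc : ContDiff ℝ 1 fun z : R3 => y + (z - x).ofLp :=
          contDiff_const.add ((EuclideanSpace.equiv (Fin 3) ℝ).contDiff.comp
            (contDiff_id.sub contDiff_const))
        refine ((EuclideanSpace.equiv (Fin 3) ℝ).symm.contDiff.comp
          (hY.contDiff.comp hc)).contDiffAt.congr_of_eventuallyEq ?_
        filter_upwards [(hc.continuous.continuousAt (x := x)).eventually
          (hU.mem_nhds (by simpa using hY.support hy))] with z hz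
        have e2 : (z : R3 ⧸ G) = pr G (y + (z - x).ofLp) := by
          change _ = ((WithLp.toLp 2 y + (z - x) : R3) : R3 ⧸ G)
          rw [QuotientAddGroup.mk_add, QuotientAddGroup.mk_sub, ← e]
          exact (add_sub_cancel _ _).symm
        rw [e2, k1 _ hz]
        rfl
      · exact contDiffAt_const.congr_of_eventuallyEq
          (QuotientAddGroup.continuous_mk.continuousAt.eventually (k3 _ hx))
    · by_cases hp : p ∈ pr G '' tsupport Y
      · obtain ⟨y, hy, rfl⟩ := hp
        rw [k1 y (hY.support hy), EuclideanSpace.norm_eq]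
        exact Real.sqrt_le_one.2 (by simpa using hY.bound y)
      · simp [k2 p hp]
  refine le_trans (le_of_eq ?_) (le_iSup₂ (f := fun (X : R3 ⧸ G → R3) (_ : IsField X) =>
    ENNReal.ofReal (∫ p in E, div X p ∂vol G)) X hF)
  have hm := (measurable_pr hE).inter hU.measurableSet
  rw [hY.integral_inter (measurable_pr hE), setIntegral_eq_of_subset_of_forall_sdiff_eq_zero hE
    (inter_subset_left (t := pr G '' U)), ← image_preimage_inter,
    hF.integral_image hG hm (hi.mono inter_subset_right)]
  · congr 1
    refine setIntegral_congr_fun hm fun x hx => ?_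
    have h1 : Y =ᶠ[𝓝 x] lift X := mem_of_superset (hU.mem_nhds hx.2) fun z hz => by
      simp only [mem_ofPred_eq, lift, k1 z hz]
    simp only [divergence, h1.fderiv_eq]
  · intro p hp
    obtain ⟨x, rfl⟩ := pr_surjective p
    have h1 : lift X =ᶠ[𝓝 x] fun _ => 0 := by
      filter_upwards [continuous_pr.continuousAt.eventually
        (k3 _ fun h => hp.2 ⟨hp.1, image_mono hY.support h⟩)] with z hz
      simp only [lift, hz]
      rfl
    rw [hF.div_pr]
    simp [divergence, h1.fderiv_eq]

theorem perimeter_congr {E F : Set (R3 ⧸ G)} (h : E =ᵐ[vol G] F) : perimeter E = perimeter F := by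
  simp only [perimeter, setIntegral_congr_set h]

end Vale.Agent.N232
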