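import Vale.Agent.P232.H732.Classify

/-! Windows on the line; the perimeter relative to an open set; boxes. -/

open MeasureTheory Set Filter Topology

namespace Vale.Agent.N232

open Vale.Agent.P232

/-- An additive and Lipschitz function of intervals. -/
structure Mass (m : ℝ → ℝ → ℝ) : Prop where
  add : ∀ p y q, p ≤ y → y ≤ q → m p q = m p y + m y q
  nonneg : ∀ p q, 0 ≤ m p q
  lip : ∃ C, ∀ p q, p ≤ q → m p q ≤ C * (q - p)

theorem Mass.self {m : ℝ → ℝ → ℝ} (h : Mass m) (p : ℝ) : m p p = 0 := by
  have := h.add p p p le_rfl le_rfl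
  linarith

theorem Mass.mono {m : ℝ → ℝ → ℝ} (h : Mass m) {p p' q' q : ℝ} (h1 : p ≤ p') (h2 : p' ≤ q')
    (h3 : q' ≤ q) : m p' q' ≤ m p q := by
  rw [h.add p p' q h1 (h2.trans h3), h.add p' q' q h2 h3]
  linarith [h.nonneg p p', h.nonneg q' q]

theorem Mass.continuousOn {m : ℝ → ℝ → ℝ} (h : Mass m) (p : ℝ) : ContinuousOn (m p) (Ici p) := by
  obtain ⟨C, hC⟩ := h.lip
  have key : ∀ y z, p ≤ y → y ≤ z → |m p z - m p y| ≤ |C| * |z - y| := fun y z h1 h2 => by
    rw [h.add p y z h1 h2, add_sub_cancel_left, abs_of_nonneg (h.nonneg _ _), ← abs_mul]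
    exact (hC y z h2).trans (le_abs_self _)
  refine (LipschitzOnWith.of_dist_le_mul (K := ⟨|C|, abs_nonneg C⟩) fun y hy z hz => ?_).continuousOn
  rw [Real.dist_eq, Real.dist_eq]
  rcases le_total y z with h1 | h1
  · rw [abs_sub_comm, abs_sub_comm y]
    exact key y z hy h1
  · exact key z y hz h1

/-- Intermediate values. -/
theorem Mass.ivt {m : ℝ → ℝ → ℝ} (h : Mass m) {p y q w : ℝ} (h1 : p ≤ y) (h2 : y ≤ q)
    (h3 : m p y ≤ w) (h4 : w ≤ m p q) : ∃ s, y ≤ s ∧ s ≤ q ∧ m p s = w := by
  obtain ⟨s, hs, e⟩ := intermediate_value_Icc h2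
    ((h.continuousOn p).mono fun z hz => h1.trans hz.1) ⟨h3, h4⟩
  exact ⟨s, hs.1, hs.2, e⟩

/-- A periodic mass is halved by two opposite points. -/
theorem Mass.bisect {m : ℝ → ℝ → ℝ} (h : Mass m) {P : ℝ} (hP : 0 < P)
    (hper : ∀ p q, m (p + P) (q + P) = m p q) (l : ℝ) :
    ∃ s, m s (s + P / 2) = m l (l + P) / 2 ∧ m (s + P / 2) (s + P) = m l (l + P) / 2 := by
  have hc : ContinuousOn (fun s => m l (s + P / 2) - m l s) (Icc l (l + P / 2)) :=
    ((h.continuousOn l).comp (continuous_add_const _).continuousOn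
      fun z hz => by have := hz.1; simp only [mem_Ici]; linarith).sub
      ((h.continuousOn l).mono fun z hz => hz.1)
  have e1 := h.add l (l + P / 2) (l + P) (by linarith) (by linarith)
  have e0 := h.self l
  have e2 : l + P / 2 + P / 2 = l + P := by ring
  have hmem : m l (l + P) / 2 ∈ uIcc ((fun s => m l (s + P / 2) - m l s) l)
      ((fun s => m l (s + P / 2) - m l s) (l + P / 2)) := by
    simp only [e2, mem_uIcc]
    rcases le_total (m l (l + P / 2)) (m (l + P / 2) (l + P)) with h1 | h1
    · left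
      constructor <;> linarith
    · right
      constructor <;> linarith
  have hle : l ≤ l + P / 2 := by linarith
  obtain ⟨s, hs, e⟩ := intermediate_value_uIcc (a := l) (b := l + P / 2)
    (f := fun s => m l (s + P / 2) - m l s) (by rwa [uIcc_of_le hle]) hmem
  rw [uIcc_of_le hle] at hs
  have e3 := h.add l s (s + P / 2) hs.1 (by linarith)
  have e4 := h.add s (s + P / 2) (s + P) (by linarith) (by linarith)
  have e5 := h.add s (l + P) (s + P) (by linarith [hs.2]) (by linarith [hs.1])
  have e6 := h.add l s (l + P) hs.1 (by linarith [hs.2])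
  have e7 := hper l s
  simp only at e
  exact ⟨s, by linarith, by linarith⟩

/-- From short windows of small density to all windows. -/
theorem Mass.window {m : ℝ → ℝ → ℝ} (h : Mass m) {Φ : ℝ → ℝ → ENNReal}
    (hΦ : ∀ p y q, p ≤ y → y ≤ q → Φ p y + Φ y q ≤ Φ p q) {lam t κ : ℝ} (hl : 0 < lam)
    (ht : 0 < t) (hκ : 0 ≤ κ)
    (h0 : ∀ p q, p ≤ q → q - p ≤ t → m p q ≤ lam * (q - p) → ENNReal.ofReal (κ * m p q) ≤ Φ p q)
    {p q : ℝ} (hpq : t ≤ q - p) (hm : m p q ≤ lam * t) : ENNReal.ofReal (κ * m p q) ≤ Φ p q := by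
  have split : ∀ p y q, p ≤ y → y ≤ q → ENNReal.ofReal (κ * m p y) ≤ Φ p y →
      ENNReal.ofReal (κ * m y q) ≤ Φ y q → ENNReal.ofReal (κ * m p q) ≤ Φ p q := by
    intro p y q h1 h2 h3 h4
    rw [h.add p y q h1 h2, mul_add, ENNReal.ofReal_add (mul_nonneg hκ (h.nonneg _ _))
      (mul_nonneg hκ (h.nonneg _ _))]
    exact (add_le_add h3 h4).trans (hΦ p y q h1 h2)
  have key : ∀ n : ℕ, ∀ p, p ≤ q → q - p ≤ n * t → m p q ≤ lam * t → m p q ≤ lam * (q - p) →
      ENNReal.ofReal (κ * m p q) ≤ Φ p q := by
    intro n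
    induction n with
    | zero => exact fun p h1 h2 _ h4 => h0 p q h1 (by simp at h2; linarith) h4
    | succ n ih =>
      intro p h1 h2 h3 h4
      rcases le_total (q - p) t with h5 | h5
      · exact h0 p q h1 h5 h4
      have e1 := h.add p (p + t) q (by linarith) (by linarith)
      have n1 := h.nonneg p (p + t)
      have n2 := h.nonneg (p + t) q
      rcases le_total (m (p + t) q) (lam * (q - (p + t))) with h6 | h6
      · refine split p (p + t) q (by linarith) (by linarith)
          (h0 _ _ (by linarith) (by linarith) (by rw [add_sub_cancel_left]; linarith))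
          (ih _ (by linarith) (by push_cast at h2; linarith) (by linarith) h6)
      · have hc : ContinuousOn (fun y => lam * (y - p) - m p y) (Icc p (p + t)) :=
          (by fun_prop : Continuous fun y : ℝ => lam * (y - p)).continuousOn.sub
            ((h.continuousOn p).mono fun z hz => hz.1)
        obtain ⟨y, hy, e⟩ := intermediate_value_Icc (by linarith : p ≤ p + t) hc
          (show lam * (q - p) - m p q ∈ Icc _ _ from
            ⟨by simp only [h.self]; linarith, by nlinarith⟩)
        simp only at e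
        have hyq : y ≤ q := by linarith [hy.2]
        have e2 := h.add p y q hy.1 hyq
        have n3 := h.nonneg p y
        have e3 : m y q = lam * (q - y) := by linarith
        refine split p y q hy.1 hyq (h0 _ _ hy.1 (by linarith [hy.2]) (by linarith))
          (h0 _ _ hyq ?_ e3.le)
        exact le_of_mul_le_mul_left (by linarith) hl
  obtain ⟨n, hn⟩ := exists_nat_ge ((q - p) / t)
  exact key n p (by linarith) ((div_le_iff₀ ht).1 hn) hm
    (hm.trans (mul_le_mul_of_nonneg_left hpq hl.le))

/-- The space `ℝ³` in coordinates. -/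
abbrev V3 : Type := Fin 3 → ℝ

/-- The fields with compact support in `U`. -/
structure Fld (U : Set V3) (X : V3 → V3) : Prop where
  contDiff : ContDiff ℝ 1 X
  compact : HasCompactSupport X
  support : tsupport X ⊆ U
  bound : ∀ x, ∑ i, X x i ^ 2 ≤ 1

/-- The perimeter of `F` relative to `U`. -/
noncomputable def rp (F U : Set V3) : ENNReal :=
  ⨆ (X : V3 → V3) (_ : Fld U X), ENNReal.ofReal (∫ x in F, divergence X x)

theorem fld_zero (U : Set V3) : Fld U (fun _ => 0) :=
  ⟨contDiff_const, HasCompactSupport.zero, by simp [tsupport], by simp⟩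

theorem divergence_eq_zero {X : V3 → V3} {x : V3} (hx : x ∉ tsupport X) : divergence X x = 0 := by
  have h : fderiv ℝ X x = 0 := by
    by_contra h
    exact hx (support_fderiv_subset ℝ h)
  simp [divergence, h]

theorem Fld.integrable {U : Set V3} {X : V3 → V3} (h : Fld U X) : Integrable (divergence X) :=
  (continuous_divergence h.contDiff).integrable_of_hasCompactSupport
    (h.compact.mono' fun x hx => by
      by_contra h'
      exact hx (divergence_eq_zero h'))

theorem le_rp {F U : Set V3} {X : V3 → V3} (h : Fld U X) :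
    ENNReal.ofReal (∫ x in F, divergence X x) ≤ rp F U :=
  le_iSup₂ (f := fun (X : V3 → V3) (_ : Fld U X) => ENNReal.ofReal (∫ x in F, divergence X x)) X h

theorem rp_mono (F : Set V3) {U W : Set V3} (h : U ⊆ W) : rp F U ≤ rp F W :=
  iSup₂_le fun _ hX => le_rp ⟨hX.contDiff, hX.compact, hX.support.trans h, hX.bound⟩

theorem rp_add (F : Set V3) {U W : Set V3} (h : Disjoint U W) :
    rp F U + rp F W ≤ rp F (U ∪ W) := by
  refine ENNReal.biSup_add_biSup_le' ⟨_, fld_zero U⟩ ⟨_, fld_zero W⟩ fun X hX Y hY => ?_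
  rcases le_total (∫ x in F, divergence X x) 0 with h1 | h1
  · rw [ENNReal.ofReal_of_nonpos h1, zero_add]
    exact (le_rp hY).trans (rp_mono F subset_union_right)
  rcases le_total (∫ x in F, divergence Y x) 0 with h2 | h2
  · rw [ENNReal.ofReal_of_nonpos h2, add_zero]
    exact (le_rp hX).trans (rp_mono F subset_union_left)
  have hZ : Fld (U ∪ W) (X + Y) := by
    refine ⟨hX.contDiff.add hY.contDiff, hX.compact.add hY.compact,
      (tsupport_add X Y).trans (union_subset_union hX.support hY.support), fun x => ?_⟩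
    by_cases hx : x ∈ tsupport X
    · have h3 : Y x = 0 := image_eq_zero_of_notMem_tsupport fun h' =>
        disjoint_left.1 h (hX.support hx) (hY.support h')
      simpa [h3] using hX.bound x
    · simpa [image_eq_zero_of_notMem_tsupport hx] using hY.bound x
  have hd : ∀ x, divergence (X + Y) x = divergence X x + divergence Y x := fun x => by
    unfold divergence
    rw [fderiv_add (hX.contDiff.differentiable one_ne_zero x)
      (hY.contDiff.differentiable one_ne_zero x)]
    simp [Finset.sum_add_distrib]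
  rw [← ENNReal.ofReal_add h1 h2, ← integral_add hX.integrable.integrableOn
    hY.integrable.integrableOn]
  simpa only [hd] using le_rp (F := F) hZ

theorem Fld.integral_eq_zero {U : Set V3} {X : V3 → V3} (h : Fld U X) :
    ∫ x, divergence X x = 0 := by
  have hXi : ∀ i, ContDiff ℝ 1 (fun x => X x i) := fun i => contDiff_pi.mp h.contDiff i
  have hc : ∀ i, HasCompactSupport (fun x => X x i) := fun i =>
    h.compact.comp_left (g := fun v : V3 => v i) rfl
  have hint : ∀ i, Integrable (fun x => fderiv ℝ (fun x => X x i) x (Pi.single i 1)) := fun i =>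
    (((hXi i).continuous_fderiv one_ne_zero).clm_apply
      continuous_const).integrable_of_hasCompactSupport ((hc i).fderiv_apply ℝ _)
  have hXi' : ∀ x, divergence X x = ∑ i, fderiv ℝ (fun x => X x i) x (Pi.single i 1) := by
    intro x
    refine Finset.sum_congr rfl fun i _ => ?_
    rw [fderiv_apply (h.contDiff.differentiable one_ne_zero x)]
    rfl
  simp_rw [hXi']
  rw [integral_finsetSum _ fun i _ => hint i]
  refine Finset.sum_eq_zero fun i _ => ?_
  have := integral_mul_fderiv_eq_neg_fderiv_mul_of_integrable (μ := volume)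
    (f := fun _ : V3 => (1 : ℝ)) (g := fun x => X x i) (v := Pi.single i 1) (by simp)
    (by simpa using hint i)
    (by simpa using (hXi i).continuous.integrable_of_hasCompactSupport (hc i))
    (fun x _ => differentiableAt_const _) (fun x _ => (hXi i).differentiable one_ne_zero x)
  simpa using this

theorem rp_compl_le {F : Set V3} (hF : MeasurableSet F) (U : Set V3) : rp Fᶜ U ≤ rp F U := by
  refine iSup₂_le fun X hX => ?_
  have hN : Fld U (fun x => -X x) :=
    ⟨hX.contDiff.neg, hX.compact.neg, (tsupport_neg X).le.trans hX.support,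
      fun x => by simpa using hX.bound x⟩
  refine le_trans (le_of_eq ?_) (le_rp hN)
  have h1 := integral_add_compl hF hX.integrable
  rw [hX.integral_eq_zero] at h1
  simp only [divergence_neg, integral_neg]
  congr 1
  linarith

/-- The open box. -/
def bx (l u : V3) : Set V3 := Set.pi univ fun i => Ioo (l i) (u i)

theorem isOpen_bx (l u : V3) : IsOpen (bx l u) :=
  isOpen_set_pi finite_univ fun _ _ => isOpen_Ioo

theorem mem_bx {l u x : V3} : x ∈ bx l u ↔ ∀ i, l i < x i ∧ x i < u i := by
  simp [bx, Set.mem_pi]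

theorem volume_bx_ne_top (l u : V3) : volume (bx l u) ≠ ⊤ := by
  rw [bx, Real.volume_pi_Ioo]
  exact ENNReal.prod_ne_top fun _ _ => ENNReal.ofReal_ne_top

theorem real_bx {l u : V3} (h : l ≤ u) : volume.real (bx l u) = ∏ i, (u i - l i) :=
  Real.volume_pi_Ioo_toReal h

/-- The volume of `F` in a box. -/
noncomputable def mass (F : Set V3) (l u : V3) : ℝ := volume.real (F ∩ bx l u)

theorem mass_le (F : Set V3) (l u : V3) : mass F l u ≤ volume.real (bx l u) :=
  measureReal_mono inter_subset_right (volume_bx_ne_top l u)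

theorem mass_compl {F : Set V3} (hF : MeasurableSet F) {l u : V3} (h : l ≤ u) :
    mass Fᶜ l u = ∏ i, (u i - l i) - mass F l u := by
  have h1 := measureReal_inter_add_sdiff (μ := volume) (s := bx l u) hF (volume_bx_ne_top l u)
  rw [real_bx h, inter_comm, sdiff_eq, inter_comm (bx l u)] at h1
  unfold mass
  linarith

theorem mem_bx_update {l u x : V3} {i : Fin 3} {p q : ℝ} :
    x ∈ bx (Function.update l i p) (Function.update u i q) ↔
      (p < x i ∧ x i < q) ∧ ∀ j, j ≠ i → l j < x j ∧ x j < u j := by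
  rw [mem_bx]
  refine ⟨fun h => ⟨by simpa using h i, fun j hj => by simpa [hj] using h j⟩, fun h j => ?_⟩
  by_cases hj : j = i
  · subst hj
    simpa using h.1
  · simpa [hj] using h.2 j hj

theorem rp_window (F : Set V3) (l u : V3) (i : Fin 3) (p y q : ℝ) (h1 : p ≤ y) (h2 : y ≤ q) :
    rp F (bx (Function.update l i p) (Function.update u i y)) +
      rp F (bx (Function.update l i y) (Function.update u i q)) ≤
      rp F (bx (Function.update l i p) (Function.update u i q)) := by
  refine (rp_add F (disjoint_left.2 fun x hx hx' => ?_)).trans (rp_mono F ?_)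
  · exact lt_asymm (mem_bx_update.1 hx).1.2 (mem_bx_update.1 hx').1.1
  · rintro x (hx | hx) <;> rw [mem_bx_update] at hx ⊢
    · exact ⟨⟨hx.1.1, hx.1.2.trans_le h2⟩, hx.2⟩
    · exact ⟨⟨h1.trans_lt hx.1.1, hx.1.2⟩, hx.2⟩

theorem mass_window {F : Set V3} (hF : MeasurableSet F) (l u : V3) (i : Fin 3) :
    Mass fun p q => mass F (Function.update l i p) (Function.update u i q) := by
  refine ⟨fun p y q h1 h2 => ?_, fun _ _ => measureReal_nonneg,
    ∏ j ∈ Finset.univ.erase i, |u j - l j|, fun p q h => ?_⟩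
  · unfold mass
    rw [← measureReal_union (disjoint_left.2 fun x hx hx' =>
      lt_asymm (mem_bx_update.1 hx.2).1.2 (mem_bx_update.1 hx'.2).1.1)
      (hF.inter (isOpen_bx _ _).measurableSet)
      (measure_ne_top_of_subset inter_subset_right (volume_bx_ne_top _ _))
      (measure_ne_top_of_subset inter_subset_right (volume_bx_ne_top _ _))]
    refine measureReal_congr ?_
    filter_upwards [Measure.ae_eval_ne (fun _ : Fin 3 => (volume : Measure ℝ)) i y] with x hx
    refine propext ?_
    change x ∈ F ∧ x ∈ bx _ _ ↔ (x ∈ F ∧ x ∈ bx _ _) ∨ (x ∈ F ∧ x ∈ bx _ _)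
    simp only [mem_bx_update]
    constructor
    · rintro ⟨h3, h4, h5⟩
      rcases lt_or_gt_of_ne hx with h6 | h6
      · exact Or.inl ⟨h3, ⟨h4.1, h6⟩, h5⟩
      · exact Or.inr ⟨h3, ⟨h6, h4.2⟩, h5⟩
    · rintro (⟨h3, h4, h5⟩ | ⟨h3, h4, h5⟩)
      · exact ⟨h3, ⟨h4.1, h4.2.trans_le h2⟩, h5⟩
      · exact ⟨h3, ⟨h1.trans_lt h4.1, h4.2⟩, h5⟩
  · refine (mass_le F _ _).trans ?_
    rw [Measure.real, bx, Real.volume_pi_Ioo, ENNReal.toReal_prod,
      ← Finset.prod_erase_mul _ _ (Finset.mem_univ i)]
    simp only [Function.update_self]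
    rw [ENNReal.toReal_ofReal (sub_nonneg.2 h)]
    refine mul_le_mul_of_nonneg_right (Finset.prod_le_prod (fun _ _ => ENNReal.toReal_nonneg)
      fun j hj => ?_) (sub_nonneg.2 h)
    rw [Function.update_of_ne (Finset.ne_of_mem_erase hj),
      Function.update_of_ne (Finset.ne_of_mem_erase hj), ENNReal.toReal_ofReal']
    exact max_le (le_abs_self _) (abs_nonneg _)

theorem mass_shift {F : Set V3} {g : V3} (hP : ∀ x, x + g ∈ F ↔ x ∈ F) (l u : V3) :
    mass F (l + g) (u + g) = mass F l u := by
  unfold mass Measure.real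
  rw [← measure_preimage_add_right volume g]
  congr 2
  ext x
  simp only [mem_preimage, mem_inter_iff, hP, mem_bx, Pi.add_apply, add_lt_add_iff_right]

theorem Mass.const {m : ℝ → ℝ → ℝ} (h : Mass m) {P : ℝ} (hP : 0 < P)
    (hper : ∀ p q, m (p + P) (q + P) = m p q) (l s : ℝ) : m s (s + P) = m l (l + P) := by
  have key : ∀ l s, l ≤ s → s ≤ l + P → m s (s + P) = m l (l + P) := fun l s h1 h2 => by
    rw [h.add s (l + P) (s + P) h2 (by linarith), h.add l s (l + P) h1 h2, hper, add_comm]
  have ind : ∀ l (n : ℕ) s, l ≤ s → s ≤ l + n * P → m s (s + P) = m l (l + P) := fun l n => by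
    induction n with
    | zero => exact fun s h1 h2 => key l s h1 (by simp at h2; linarith)
    | succ n ih =>
      intro s h1 h2
      rcases le_total s (l + n * P) with h3 | h3
      · exact ih s h1 h3
      · rw [key _ s h3 (by push_cast at h2; linarith), ih _ (le_add_of_nonneg_right (by positivity))
          le_rfl]
  have fin : ∀ l s, l ≤ s → m s (s + P) = m l (l + P) := fun l s h1 => by
    obtain ⟨n, hn⟩ := exists_nat_ge ((s - l) / P)
    exact ind l n s h1 (by linarith [(div_le_iff₀ hP).1 hn])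
  exact (le_total l s).elim (fin l s) fun h1 => (fin s l h1).symm

theorem up0 (x y z s : ℝ) : Function.update (![x, y, z] : V3) 0 s = ![s, y, z] := by
  ext i
  fin_cases i <;> rfl

theorem up1 (x y z s : ℝ) : Function.update (![x, y, z] : V3) 1 s = ![x, s, z] := by
  ext i
  fin_cases i <;> rfl

theorem up2 (x y z s : ℝ) : Function.update (![x, y, z] : V3) 2 s = ![x, y, s] := by
  ext i
  fin_cases i <;> rfl

theorem mem_bx3 {x0 x1 y0 y1 z0 z1 : ℝ} {x : V3} : x ∈ bx ![x0, y0, z0] ![x1, y1, z1] ↔
    (x0 < x 0 ∧ x 0 < x1) ∧ (y0 < x 1 ∧ x 1 < y1) ∧ z0 < x 2 ∧ x 2 < z1 := by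
  rw [mem_bx, Fin.forall_fin_succ, Fin.forall_fin_two]
  rfl

end Vale.Agent.N232
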